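import Vale.Agent.P095.Amen.Targets

/-!
# P095: orbits, and state bounds for marks and products of commuting sources
-/

namespace Vale.Agent.P095.Amen.Endgame

open Vale.Agent.P101.KR Set

noncomputable section

variable {F : Type} [CStarAlgebra F]

/-- The two-sided orbit of a set. -/
def orbitSet (σ : F ≃⋆ₐ[ℂ] F) (W : Set F) : Set F :=
  ⋃ g : ℤ, ⇑((EquivLike.toEquiv σ : Equiv.Perm F) ^ g) '' W

theorem subset_orbitSet (σ : F ≃⋆ₐ[ℂ] F) (W : Set F) : W ⊆ orbitSet σ W :=
  fun x hx => mem_iUnion.2 ⟨0, x, hx, rfl⟩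

theorem countable_orbitSet (σ : F ≃⋆ₐ[ℂ] F) {W : Set F} (hW : W.Countable) :
    (orbitSet σ W).Countable := countable_iUnion fun _ => hW.image _

theorem image_orbitSet (σ : F ≃⋆ₐ[ℂ] F) (W : Set F) : σ '' orbitSet σ W = orbitSet σ W := by
  set p : Equiv.Perm F := EquivLike.toEquiv σ
  have h : ∀ g : ℤ, σ '' (⇑(p ^ g) '' W) = ⇑(p ^ (1 + g)) '' W := fun g => by
    rw [← image_comp, zpow_add, zpow_one, Equiv.Perm.coe_mul]; rfl
  show σ '' (⋃ g : ℤ, ⇑(p ^ g) '' W) = ⋃ g : ℤ, ⇑(p ^ g) '' W
  rw [image_iUnion, iUnion_congr h]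
  exact (Equiv.addLeft (1 : ℤ)).surjective.iUnion_comp fun g => ⇑(p ^ g) '' W

/-- Copies of an invariant subalgebra indexed by a subset. -/
def reindexCopies {σ : F ≃⋆ₐ[ℂ] F} {s : Set F} {ι ι' : Type} (κ : ECopies σ s ι) (f : ι' → ι)
    (hf : Function.Injective f) : ECopies σ s ι' where
  hom i := κ.hom (f i)
  comm _ _ h := κ.comm _ _ (hf.ne h)
  equiv i := κ.equiv (f i)

theorem exists_copies {σ : F ≃⋆ₐ[ℂ] F} (hσ : Setting σ) {W : Set F} (hW : W.Countable)
    (n : ℕ) : Nonempty (ECopies σ (orbitSet σ W) (Fin n)) :=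
  (hσ.copies _ (countable_orbitSet σ hW) (image_orbitSet σ W)).map fun κ =>
    reindexCopies κ _ Fin.val_injective

theorem hasCopies_of {σ : F ≃⋆ₐ[ℂ] F} (hσ : Setting σ) : HasCopies F := fun s hs m => by
  obtain ⟨κ⟩ := exists_copies hσ hs m
  have hle : Cl s ≤ Cl (orbitSet σ s) :=
    StarSubalgebra.topologicalClosure_mono (StarAlgebra.adjoin_le
      ((subset_orbitSet σ s).trans (StarAlgebra.subset_adjoin ℂ _)))
  exact ⟨⟨fun i => (κ.hom i).comp (StarSubalgebra.inclusion hle),
    fun i j h a b => κ.comm i j h _ _⟩⟩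

theorem subset_cl (s : Set F) : s ⊆ Cl s := fun _ hx =>
  StarSubalgebra.le_topologicalClosure _ (StarAlgebra.subset_adjoin ℂ s hx)

/-- A positive element with the witness `z`. -/
theorem posIn_star_mul {B : StarSubalgebra ℂ F} {z : F} (hz : z ∈ B) : PosIn B (star z * z) :=
  ⟨mul_mem (star_mem hz) hz, z, hz, rfl⟩

/-- Exact witnesses of subequivalence. -/
theorem leIn_of_eq {B : StarSubalgebra ℂ F} {n m : ℕ} {u : Fin n → F} {v : Fin m → F}
    (x : Fin m → Fin n → F) (hx : ∀ j i, x j i ∈ B)
    (h : ∀ i i', (∑ j, star (x j i) * v j * x j i') = if i = i' then u i else 0) : LeIn B u v :=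
  fun ε hε => ⟨x, hx, fun i i' => by rw [h, sub_self, norm_zero]; exact hε.le⟩

variable {t : Set F} {Q K : ℕ}

/-- A mark with `K + 1` witnesses has value at least `1 / (K + 1)`. -/
theorem dge_mark (φ : Cl t →⋆ₐ[ℂ] F) {e : Cl t} {w : Fin (K + 1) → Cl t}
    (hw : ∑ i, star (w i) * (star e * e) * w i = 1) :
    DGe (star (φ e) * φ e) (1 / (K + 1)) := by
  set S : Set F := insert (φ e) (range fun i => φ (w i))
  refine ⟨S, (countable_range _).insert _, posIn_star_mul (subset_cl S (mem_insert _ _)),
    fun d => ?_⟩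
  have h := d.mono (fun _ : Fin 1 => (1 : F)) (fun _ : Fin (K + 1) => star (φ e) * φ e)
    (fun _ => ⟨one_mem _, 1, one_mem _, by simp⟩)
    (fun _ => posIn_star_mul (subset_cl S (mem_insert _ _)))
    (leIn_of_eq (fun j _ => φ (w j))
      (fun j _ => subset_cl S (mem_insert_of_mem _ (mem_range_self j))) fun i i' => by
        have h1 := congrArg φ hw
        simp only [map_sum, map_mul, map_star, map_one] at h1
        rw [if_pos (Subsingleton.elim i i'), h1])
  simp only [Finset.sum_const, Finset.card_univ, Fintype.card_fin, one_smul, d.one,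
    nsmul_eq_mul, Nat.cast_add, Nat.cast_one] at h
  rw [div_le_iff₀ (by positivity)]
  linarith

/-- A product of commuting sources, each orthogonal to a mark with `K + 1` witnesses, has value at
most `(1 - 1 / (K + 1)) ^ Q`, also after a conjugation. -/
theorem dle_prod (φ : Fin Q → Cl t →⋆ₐ[ℂ] F)
    (hφ : ∀ i j, i ≠ j → ∀ a b, Commute (φ i a) (φ j b)) {s e : Cl t} (hs : star s = s)
    (hse : s * e = 0) {w : Fin (K + 1) → Cl t}
    (hw : ∑ i, star (w i) * (star e * e) * w i = 1) (g : F) :
    DLe (star ((List.ofFn fun i => φ i s).prod * g) * ((List.ofFn fun i => φ i s).prod * g))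
      ((1 - 1 / (K + 1 : ℝ)) ^ Q) := by
  set S : Set F := insert g ((range fun i => φ i s) ∪ (range fun i => φ i e) ∪
    range fun p : Fin Q × Fin (K + 1) => φ p.1 (w p.2))
  have hS : S.Countable :=
    (((countable_range _).union (countable_range _)).union (countable_range _)).insert _
  have hg : g ∈ Cl S := subset_cl S (mem_insert _ _)
  have hsS : ∀ i, φ i s ∈ Cl S := fun i =>
    subset_cl S (mem_insert_of_mem _ (Or.inl (Or.inl ⟨i, rfl⟩)))
  have heS : ∀ i, φ i e ∈ Cl S := fun i =>
    subset_cl S (mem_insert_of_mem _ (Or.inl (Or.inr ⟨i, rfl⟩)))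
  have hwS : ∀ i j, φ i (w j) ∈ Cl S := fun i j =>
    subset_cl S (mem_insert_of_mem _ (Or.inr ⟨(i, j), rfl⟩))
  let pr : ℕ → F := fun n => ((List.ofFn fun i => φ i s).take n).prod
  have hprS : ∀ n, pr n ∈ Cl S := fun n => list_prod_mem fun z hz => by
    obtain ⟨i, rfl⟩ := List.mem_ofFn.1 (List.mem_of_mem_take hz)
    exact hsS i
  refine ⟨S, hS, posIn_star_mul (mul_mem (?_ : _ ∈ Cl S) hg), fun d => ?_⟩
  · simpa [pr, List.take_of_length_le] using hprS Q
  set ρ : ℝ := 1 - 1 / (K + 1 : ℝ)
  have hρ : 0 ≤ ρ := by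
    have : (1 : ℝ) / (K + 1) ≤ 1 := by rw [div_le_one (by positivity)]; simp
    simp only [ρ]; linarith
  have key : ∀ n ≤ Q, d.d (star (pr n) * pr n) ≤ ρ ^ n := by
    intro n
    induction n with
    | zero => intro _; simp [pr, d.one]
    | succ n ih =>
      intro hn
      set p : Fin Q := ⟨n, hn⟩
      have hprs : pr (n + 1) = pr n * φ p s := by
        simp only [pr]
        rw [List.prod_take_succ _ _ (by simpa using hn)]
        simp [p]
      have hc : ∀ a, Commute (φ p a) (pr n) := fun a => Commute.list_prod_right _ _ fun z hz => by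
        obtain ⟨i, hi, rfl⟩ := List.mem_take_iff_getElem.1 hz
        simp only [List.getElem_ofFn]
        refine hφ p _ (fun h => ?_) _ _
        have h' := congrArg Fin.val h
        simp only [p] at h'
        omega
      set W := star (pr n) * pr n
      have hcW : ∀ a, Commute (φ p a) W := fun a => by
        refine Commute.mul_right ?_ (hc a)
        simpa [← map_star] using (hc (star a)).star_star
      let u : Fin 2 → F := ![star (pr n * φ p s) * (pr n * φ p s),
        star (pr n * φ p e) * (pr n * φ p e)]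
      have h1 := d.mono u (fun _ : Fin 1 => W)
        (fun i => by
          fin_cases i
          · exact posIn_star_mul (mul_mem (hprS n) (hsS p))
          · exact posIn_star_mul (mul_mem (hprS n) (heS p)))
        (fun _ => posIn_star_mul (hprS n))
        (leIn_of_eq (fun _ => ![φ p s, φ p e])
          (fun _ i => by fin_cases i <;> simp [hsS p, heS p]) fun i i' => by
          have h0 : φ p s * φ p e = 0 := by rw [← map_mul, hse, map_zero]
          have h2 : star (φ p e) * φ p s = 0 := by
            have := congrArg star h0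
            rwa [star_mul, ← map_star (φ p) s, hs, star_zero] at this
          fin_cases i <;> fin_cases i' <;> simp [u, W, star_mul, mul_assoc]
          · rw [← mul_assoc (star (pr n)), ← map_star, hs, ← mul_assoc,
              (hcW s).eq, mul_assoc, h0, mul_zero]
          · rw [← mul_assoc (star (pr n)), ← map_star, ← mul_assoc, (hcW (star e)).eq,
              mul_assoc, map_star, h2, mul_zero])
      have h3 := d.mono (fun _ : Fin 1 => W) (fun _ : Fin (K + 1) => u 1)
        (fun _ => posIn_star_mul (hprS n))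
        (fun _ => posIn_star_mul (mul_mem (hprS n) (heS p)))
        (leIn_of_eq (fun j _ => φ p (w j)) (fun j _ => hwS p j) fun i i' => by
          have h := congrArg (fun z => W * φ p z) hw
          simp only [map_sum, map_mul, map_star, map_one, mul_one, Finset.mul_sum] at h
          rw [if_pos (Subsingleton.elim i i')]
          refine (Finset.sum_congr rfl fun j _ => ?_).trans h
          simp only [u, Matrix.cons_val_one, Matrix.cons_val_fin_one, star_mul]
          rw [show star (φ p e) * star (pr n) * (pr n * φ p e) = star (φ p e) * W * φ p e by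
            simp only [W, mul_assoc]]
          simp only [← map_star]
          rw [(hcW (star e)).eq]
          simp only [← mul_assoc]
          rw [(hcW (star (w j))).eq])
      simp only [Fin.sum_univ_two, Finset.sum_const, Finset.card_univ, Fintype.card_fin, one_smul,
        nsmul_eq_mul, Nat.cast_add, Nat.cast_one] at h1 h3
      have h4 : d.d W / (K + 1) ≤ d.d (u 1) := by
        rw [div_le_iff₀ (by positivity)]; linarith
      rw [hprs]
      calc d.d (u 0) ≤ ρ * d.d W := by
            have : ρ * d.d W = d.d W - d.d W / (K + 1) := by simp only [ρ]; ring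
            linarith
        _ ≤ ρ * ρ ^ n := mul_le_mul_of_nonneg_left (ih (n.le_succ.trans hn)) hρ
        _ = ρ ^ (n + 1) := (pow_succ' ρ n).symm
  set P := (List.ofFn fun i => φ i s).prod with hP
  have hpr : pr Q = P := by simp [pr, hP, List.take_of_length_le]
  have hfin := d.mono (fun _ : Fin 1 => star (P * g) * (P * g)) (fun _ : Fin 1 => star P * P)
    (fun _ => posIn_star_mul (mul_mem (hpr ▸ hprS Q) hg))
    (fun _ => posIn_star_mul (hpr ▸ hprS Q))
    (leIn_of_eq (fun _ _ => g) (fun _ _ => hg) fun i i' => by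
      simp [Subsingleton.elim i i', mul_assoc])
  simp only [Finset.sum_const, Finset.card_univ, Fintype.card_fin, one_smul] at hfin
  exact hfin.trans (hpr ▸ key Q le_rfl)

end

end Vale.Agent.P095.Amen.Endgame
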