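import Vale.Agent.P095.Amen.Targets

/-!
# P095: cut-offs of one element and telescoping products
-/

namespace Vale.Agent.P095.Amen.Endgame

noncomputable section

variable {F : Type} [CStarAlgebra F]

/-- The cut-off function of `bump`. -/
def bumpFun (η t : ℝ) : ℝ := min 1 (max 0 ((t - η / 2) / (η / 2)))

theorem bump_eq (η : ℝ) (u : F) : bump η u = cfc (bumpFun η) u := rfl

theorem continuous_bumpFun (η : ℝ) : Continuous (bumpFun η) := by
  unfold bumpFun; fun_prop

theorem bumpFun_nonneg (η t : ℝ) : 0 ≤ bumpFun η t := le_min zero_le_one (le_max_left _ _)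

theorem bumpFun_le_one (η t : ℝ) : bumpFun η t ≤ 1 := min_le_left _ _

theorem bumpFun_eq_zero {η t : ℝ} (hη : 0 < η) (ht : t ≤ η / 2) : bumpFun η t = 0 := by
  have : (t - η / 2) / (η / 2) ≤ 0 := div_nonpos_of_nonpos_of_nonneg (by linarith) (by linarith)
  simp [bumpFun, max_eq_left this]

theorem bumpFun_eq_one {η t : ℝ} (hη : 0 < η) (ht : η ≤ t) : bumpFun η t = 1 := by
  have : 1 ≤ (t - η / 2) / (η / 2) := by rw [le_div_iff₀ (by linarith)]; linarith
  simp [bumpFun, max_eq_right (zero_le_one.trans this), min_eq_left this]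

theorem star_bump (η : ℝ) (u : F) : star (bump η u) = bump η u :=
  (cfc_predicate (bumpFun η) u : IsSelfAdjoint _).star_eq

theorem norm_bump_le (η : ℝ) (u : F) : ‖bump η u‖ ≤ 1 :=
  norm_cfc_le zero_le_one fun t _ => by
    show |bumpFun η t| ≤ 1
    rw [abs_of_nonneg (bumpFun_nonneg η t)]; exact bumpFun_le_one η t

theorem norm_one_le : ‖(1 : F)‖ ≤ 1 := by
  let _ : PartialOrder F := CStarAlgebra.spectralOrder F
  have : StarOrderedRing F := CStarAlgebra.spectralOrderedRing F
  exact (CStarAlgebra.norm_le_one_iff_of_nonneg (1 : F) zero_le_one).2 le_rfl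

/-- A cut-off is a multiple of the element. -/
theorem exists_bump_eq_mul {η : ℝ} (hη : 0 < η) {a : F} (ha : IsSelfAdjoint a) :
    ∃ g : F, bump η a = a * g ∧ bump η a = g * a := by
  let h : ℝ → ℝ := fun t => bumpFun η t / max t (η / 2)
  have hpos : ∀ t : ℝ, 0 < max t (η / 2) := fun t => lt_max_of_lt_right (by linarith)
  have hc : Continuous h :=
    (continuous_bumpFun η).div (continuous_id.max continuous_const) fun t => (hpos t).ne'
  have he : ∀ t, t * h t = bumpFun η t := fun t => by
    rcases le_or_gt t (η / 2) with ht | ht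
    · simp [h, bumpFun_eq_zero hη ht]
    · simp only [h, max_eq_left ht.le]
      field_simp [show t ≠ 0 by linarith]
  refine ⟨cfc h a, ?_, ?_⟩
  · rw [bump_eq, ← funext he, cfc_mul (fun t : ℝ => t) h a continuousOn_id hc.continuousOn,
      cfc_id' ℝ a ha]
  · rw [bump_eq, ← funext fun t => (mul_comm (h t) t).trans (he t),
      cfc_mul h (fun t : ℝ => t) a hc.continuousOn continuousOn_id, cfc_id' ℝ a ha]

/-- Twice a cut-off of `star S * S` is a square through `S`. -/
theorem exists_two_bump_eq {η : ℝ} (hη : 0 < η) (S : F) :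
    ∃ g : F, (2 : ℝ) • bump η (star S * S) = star (S * g) * (S * g) := by
  set T := star S * S with hTdef
  have hT : IsSelfAdjoint T := IsSelfAdjoint.star_mul_self S
  let h : ℝ → ℝ := fun t => Real.sqrt (2 * bumpFun η t / max t (η / 2))
  have hpos : ∀ t : ℝ, 0 < max t (η / 2) := fun t => lt_max_of_lt_right (by linarith)
  have hc : Continuous h :=
    (((continuous_bumpFun η).const_mul 2).div (continuous_id.max continuous_const)
      fun t => (hpos t).ne').sqrt
  have he : ∀ t, h t * (t * h t) = 2 * bumpFun η t := fun t => by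
    rw [mul_left_comm, Real.mul_self_sqrt (div_nonneg (by linarith [bumpFun_nonneg η t])
      (hpos t).le)]
    rcases le_or_gt t (η / 2) with ht | ht
    · simp [bumpFun_eq_zero hη ht]
    · rw [max_eq_left ht.le]
      field_simp [show t ≠ 0 by linarith]
  refine ⟨cfc h T, ?_⟩
  rw [star_mul, (cfc_predicate h T : IsSelfAdjoint _).star_eq,
    show cfc h T * star S * (S * cfc h T) = cfc h T * (T * cfc h T) by rw [hTdef]; simp [mul_assoc]]
  have e : T * cfc h T = cfc (fun t => t * h t) T := by
    conv_lhs => arg 1; rw [← cfc_id' ℝ T hT]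
    rw [← cfc_mul (fun t : ℝ => t) h T continuousOn_id hc.continuousOn]
  rw [e, ← cfc_mul h (fun t => t * h t) T hc.continuousOn (continuous_id.mul hc).continuousOn,
    funext he, bump_eq, cfc_const_mul (2 : ℝ) (bumpFun η) T (continuous_bumpFun η).continuousOn]

/-- The higher cut-off lies under the lower one. -/
theorem bump_mul_bump {η : ℝ} (hη : 0 < η) (a : F) :
    bump (η / 2) a * bump η a = bump η a := by
  rw [bump_eq, bump_eq, ← cfc_mul (bumpFun (η / 2)) (bumpFun η) a
    (continuous_bumpFun _).continuousOn (continuous_bumpFun _).continuousOn]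
  refine cfc_congr fun t _ => ?_
  rcases le_or_gt t (η / 2) with h | h
  · simp [bumpFun_eq_zero hη h]
  · simp [bumpFun_eq_one (half_pos hη) h.le]

/-- The cut of twice the lower cut-off is one under the higher one. -/
theorem cut_mul_bump {η : ℝ} (hη : 0 < η) {a : F} (ha : IsSelfAdjoint a) :
    cut 1 ((2 : ℝ) • bump (η / 2) a) * bump η a = bump η a ∧
      ‖cut 1 ((2 : ℝ) • bump (η / 2) a)‖ ≤ 1 := by
  let m : ℝ → ℝ := fun t => max (2 * bumpFun (η / 2) t - 1) 0
  have hmc : Continuous m :=
    (((continuous_bumpFun _).const_mul 2).sub continuous_const).max continuous_const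
  have e : cut 1 ((2 : ℝ) • bump (η / 2) a) = cfc m a := by
    rw [bump_eq, ← cfc_const_mul (2 : ℝ) (bumpFun (η / 2)) a (continuous_bumpFun _).continuousOn,
      cut, ← cfc_comp' (fun t : ℝ => max (t - 1) 0) (fun t => 2 * bumpFun (η / 2) t) a
        (by fun_prop) ((continuous_bumpFun _).const_mul 2).continuousOn ha]
  rw [e]
  refine ⟨?_, norm_cfc_le zero_le_one fun t _ => ?_⟩
  · rw [bump_eq, ← cfc_mul m (bumpFun η) a hmc.continuousOn (continuous_bumpFun _).continuousOn]
    refine cfc_congr fun t _ => ?_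
    rcases le_or_gt t (η / 2) with h | h
    · simp [bumpFun_eq_zero hη h]
    · simp [m, bumpFun_eq_one (half_pos hη) h.le]; norm_num
  · rw [Real.norm_eq_abs, abs_of_nonneg (le_max_right _ _)]
    exact max_le (by linarith [bumpFun_le_one (η / 2) t]) zero_le_one

/-- Off the cut-off the element is small. -/
theorem norm_mul_one_sub_bump_le {η r : ℝ} (hη : 0 < η) (hr : 0 ≤ r) (hηr : η ≤ r * r) (S : F) :
    ‖S * (1 - bump η (star S * S) * bump η (star S * S))‖ ≤ r := by
  let _ : PartialOrder F := CStarAlgebra.spectralOrder F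
  have : StarOrderedRing F := CStarAlgebra.spectralOrderedRing F
  set T := star S * S with hTdef
  have hT : IsSelfAdjoint T := IsSelfAdjoint.star_mul_self S
  let c : ℝ → ℝ := fun t => 1 - bumpFun η t * bumpFun η t
  have hb := continuous_bumpFun η
  have hc : Continuous c := continuous_const.sub (hb.mul hb)
  have e : 1 - bump η T * bump η T = cfc c T := by
    show _ = cfc (fun t => (fun _ : ℝ => (1 : ℝ)) t - (fun t => bumpFun η t * bumpFun η t) t) T
    rw [cfc_sub (fun _ : ℝ => (1 : ℝ)) (fun t => bumpFun η t * bumpFun η t) T continuousOn_const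
        (hb.mul hb).continuousOn,
      cfc_const_one ℝ T hT,
      cfc_mul (bumpFun η) (bumpFun η) T hb.continuousOn hb.continuousOn, bump_eq]
  have e2 : T * cfc c T = cfc (fun t => t * c t) T := by
    conv_lhs => arg 1; rw [← cfc_id' ℝ T hT]
    rw [← cfc_mul (fun t : ℝ => t) c T continuousOn_id hc.continuousOn]
  have h2 : ‖S * cfc c T‖ * ‖S * cfc c T‖ ≤ η := by
    rw [← CStarRing.norm_star_mul_self, star_mul, (cfc_predicate c T : IsSelfAdjoint _).star_eq,
      show cfc c T * star S * (S * cfc c T) = cfc c T * (T * cfc c T) by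
        rw [hTdef]; simp [mul_assoc],
      e2, ← cfc_mul c (fun t => t * c t) T hc.continuousOn (continuous_id.mul hc).continuousOn]
    refine norm_cfc_le hη.le fun t ht => ?_
    have ht0 : 0 ≤ t := spectrum_nonneg_of_nonneg (star_mul_self_nonneg S) ht
    have h0 := bumpFun_nonneg η t
    have h1 := bumpFun_le_one η t
    have hc0 : 0 ≤ c t := by simp only [c]; nlinarith
    have hc1 : c t ≤ 1 := by simp only [c]; nlinarith
    rw [Real.norm_eq_abs, abs_of_nonneg (by positivity)]
    rcases le_or_gt η t with h | h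
    · simp [c, bumpFun_eq_one hη h, hη.le]
    · calc c t * (t * c t) ≤ 1 * (t * 1) := by gcongr
        _ ≤ η := by linarith
  rw [e]
  nlinarith [norm_nonneg (S * cfc c T)]

theorem norm_prod_le_one : ∀ {n : ℕ} (a : Fin n → F), (∀ i, ‖a i‖ ≤ 1) → ‖(List.ofFn a).prod‖ ≤ 1
  | 0, _, _ => by simpa using norm_one_le
  | n + 1, a, h => by
    rw [List.ofFn_succ, List.prod_cons]
    exact (norm_mul_le _ _).trans
      (mul_le_one₀ (h 0) (norm_nonneg _) (norm_prod_le_one _ fun i => h i.succ))

/-- Telescoping. -/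
theorem norm_prod_mul_one_sub_le {η : ℝ} : ∀ {n : ℕ} (a c : Fin n → F), (∀ i, ‖a i‖ ≤ 1) →
    (∀ i, ‖c i‖ ≤ 1) → (∀ i j, i ≠ j → Commute (a i) (c j)) → (∀ i, ‖a i * (1 - c i)‖ ≤ η) →
    ‖(List.ofFn a).prod * (1 - (List.ofFn c).prod)‖ ≤ n * η
  | 0, a, c, _, _, _, _ => by simp
  | n + 1, a, c, ha, hc, hac, hη => by
    rw [List.ofFn_succ, List.ofFn_succ, List.prod_cons, List.prod_cons]
    set A := (List.ofFn fun i => a i.succ).prod
    set C := (List.ofFn fun i => c i.succ).prod
    have ih : ‖A * (1 - C)‖ ≤ n * η :=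
      norm_prod_mul_one_sub_le (fun i => a i.succ) (fun i => c i.succ) (fun i => ha _)
        (fun i => hc _) (fun i j h => hac _ _ fun e => h (Fin.succ_injective _ e)) fun i => hη _
    have hAc : Commute A (c 0) := Commute.list_prod_left _ _ fun z hz => by
      obtain ⟨i, rfl⟩ := List.mem_ofFn.1 hz
      exact hac _ _ (Fin.succ_ne_zero i)
    have e : a 0 * A * (1 - c 0 * C)
        = a 0 * (A * (1 - C)) + a 0 * (1 - c 0) * (A * C) := by
      simp only [mul_sub, sub_mul, mul_one, mul_assoc]
      rw [← mul_assoc A (c 0), hAc.eq, mul_assoc]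
      abel
    have hη0 : 0 ≤ η := (norm_nonneg _).trans (hη 0)
    rw [e]
    calc _ ≤ ‖a 0 * (A * (1 - C))‖ + ‖a 0 * (1 - c 0) * (A * C)‖ := norm_add_le _ _
      _ ≤ 1 * (n * η) + η * 1 := by
          refine add_le_add ((norm_mul_le _ _).trans ?_) ((norm_mul_le _ _).trans ?_)
          · exact mul_le_mul (ha 0) ih (norm_nonneg _) zero_le_one
          · refine mul_le_mul (hη 0) ((norm_mul_le _ _).trans ?_) (norm_nonneg _) hη0
            exact mul_le_one₀ (norm_prod_le_one _ fun i => ha _) (norm_nonneg _)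
              (norm_prod_le_one _ fun i => hc _)
      _ = _ := by push_cast; ring

theorem prod_mul_prod : ∀ {n : ℕ} (a : Fin n → F), (∀ i j, i ≠ j → Commute (a i) (a j)) →
    (List.ofFn a).prod * (List.ofFn a).prod = (List.ofFn fun i => a i * a i).prod
  | 0, a, _ => by simp
  | n + 1, a, h => by
    rw [List.ofFn_succ, List.prod_cons, List.ofFn_succ, List.prod_cons,
      ← prod_mul_prod (fun i => a i.succ) fun i j hij => h _ _ fun e => hij (Fin.succ_injective _ e)]
    have hA : Commute (List.ofFn fun i => a i.succ).prod (a 0) :=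
      Commute.list_prod_left _ _ fun z hz => by
        obtain ⟨i, rfl⟩ := List.mem_ofFn.1 hz
        exact h _ _ (Fin.succ_ne_zero i)
    exact hA.mul_mul_mul_comm _ _

theorem star_prod : ∀ {n : ℕ} (a : Fin n → F), (∀ i j, i ≠ j → Commute (a i) (a j)) →
    (∀ i, star (a i) = a i) → star (List.ofFn a).prod = (List.ofFn a).prod
  | 0, a, _, _ => by simp
  | n + 1, a, h, hs => by
    rw [List.ofFn_succ, List.prod_cons, star_mul, hs,
      star_prod (fun i => a i.succ) (fun i j hij => h _ _ fun e => hij (Fin.succ_injective _ e))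
        fun i => hs _]
    exact (Commute.list_prod_left _ _ fun z hz => by
      obtain ⟨i, rfl⟩ := List.mem_ofFn.1 hz
      exact h _ _ (Fin.succ_ne_zero i) : Commute (List.ofFn fun i => a i.succ).prod (a 0)).eq

/-- A product over all positions, grouped. -/
theorem prod_ofFn_grouped {n Q : ℕ} (f : Fin n → Fin Q → F) :
    (List.ofFn fun l : Fin (n * Q) => f l.divNat l.modNat).prod
      = (List.ofFn fun i => (List.ofFn fun j => f i j).prod).prod := by
  rw [List.ofFn_mul, List.prod_flatten, List.map_ofFn]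
  congr 1
  refine congrArg List.ofFn (funext fun i => congrArg List.prod (congrArg List.ofFn
    (funext fun j => ?_)))
  have hQ : 0 < Q := j.pos
  congr 1 <;> apply Fin.ext
  · show ((i : ℕ) * Q + j) / Q = i
    rw [mul_comm, Nat.mul_add_div hQ, Nat.div_eq_of_lt j.2, add_zero]
  · show ((i : ℕ) * Q + j) % Q = j
    rw [mul_comm, Nat.mul_add_mod, Nat.mod_eq_of_lt j.2]

end

end Vale.Agent.P095.Amen.Endgame
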