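import Vale.Agent.P101.KR.Merge
import Vale.Agent.P095.Amen.Targets

/-!
# P095: merging positions inside a fixed algebra

The merge of P101 with all outputs in the algebra generated by the position data, and with a bound
on the factor of `1 - diag P` that depends only on the number of positions.
-/

namespace Vale.Agent.P095.Amen.Endgame

open Vale.Agent.P101.KR

variable {D : Type} [CStarAlgebra D] {m : ℕ}

/-- The data of the first `n` positions. -/
def mergeData (θ : Fin m → Fin 2 → Fin 2 → D) (s : Fin m → D) (n : ℕ) : Set D :=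
  {z | ∃ l : Fin m, (l : ℕ) < n ∧ (z = s l ∨ ∃ a c, z = θ l a c)}

/-- The merge of all positions. -/
theorem exists_fixed_merge (θ : Fin m → Fin 2 → Fin 2 → D) (s : Fin m → D)
    (hθ : ∀ l, OrderZero (θ l)) (hs : ∀ l, star (s l) = s l)
    (hss : ∀ l, s l * s l = 1 - diag (θ l) * diag (θ l))
    (css : ∀ l l', Commute (s l) (s l')) (csθ : ∀ l l' a c, Commute (s l) (θ l' a c))
    (cθθ : ∀ l l', l ≠ l' → ∀ a c b d, Commute (θ l a c) (θ l' b d)) :
    ∃ (P : Fin 2 → Fin 2 → D) (R : D), OrderZero P ∧
      (∀ a c, P a c ∈ Algebra.adjoin ℂ (mergeData θ s m)) ∧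
      1 - diag P = star (List.ofFn s).prod * (List.ofFn s).prod * R ∧ ‖diag P‖ ≤ 1 ∧
      ‖R‖ ≤ 2 ^ m ∧
      ∀ l, ∃ U ∈ Algebra.adjoin ℂ (mergeData θ s m),
        ∀ e, θ l 0 0 * e = e → P 0 0 * (U * e) = U * e ∧ star U * (U * e) = e := by
  let _ : PartialOrder D := CStarAlgebra.spectralOrder D
  have : StarOrderedRing D := CStarAlgebra.spectralOrderedRing D
  let alg : ℕ → Subalgebra ℂ D := fun n => Algebra.adjoin ℂ (mergeData θ s n)
  have hmono : ∀ n, alg n ≤ alg (n + 1) := fun n => Algebra.adjoin_mono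
    fun z ⟨l, hl, h⟩ => ⟨l, hl.trans n.lt_succ_self, h⟩
  let pr : ℕ → D := fun n => ((List.ofFn s).take n).prod
  have key : ∀ n ≤ m, ∃ (P : Fin 2 → Fin 2 → D) (R : D), OrderZero P ∧
      (∀ a c, P a c ∈ alg n) ∧ 1 - diag P = star (pr n) * pr n * R ∧ ‖diag P‖ ≤ 1 ∧ ‖R‖ ≤ 2 ^ n ∧
      ∀ l : Fin m, (l : ℕ) < n → ∃ U ∈ alg n,
        ∀ e, θ l 0 0 * e = e → P 0 0 * (U * e) = U * e ∧ star U * (U * e) = e := by
    intro n
    induction n with
    | zero =>
      refine fun _ => ⟨fun _ _ => 0, 1, ⟨fun _ _ => star_zero _, fun _ _ _ _ => by simp [diag],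
        fun _ => ⟨0, by simp⟩⟩, fun _ _ => zero_mem _, by simp [pr, diag], by simp [diag],
        ?_, fun l hl => absurd hl (Nat.not_lt_zero _)⟩
      rw [pow_zero]
      exact (CStarAlgebra.norm_le_one_iff_of_nonneg (1 : D) zero_le_one).2 le_rfl
    | succ n ih =>
      intro hn
      obtain ⟨b, R, hb, hbmem, hH, hb1, hR, hU⟩ := ih (n.le_succ.trans hn)
      set p : Fin m := ⟨n, hn⟩
      have hp : ∀ l : Fin m, (l : ℕ) < n → p ≠ l := fun l hl h => by
        rw [← h] at hl; exact lt_irrefl _ hl
      have hsb : ∀ z ∈ alg n, Commute (s p) z := fun z hz =>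
        Algebra.commute_of_mem_adjoin_of_forall_mem_commute hz fun w ⟨l, _, hw⟩ => by
          rcases hw with rfl | ⟨a, c, rfl⟩
          exacts [css p l, csθ p l a c]
      have hθb : ∀ a c, ∀ z ∈ alg n, Commute (θ p a c) z := fun a c z hz =>
        Algebra.commute_of_mem_adjoin_of_forall_mem_commute hz fun w ⟨l, hl, hw⟩ => by
          rcases hw with rfl | ⟨a', c', rfl⟩
          exacts [(csθ l p a c).symm, cθθ p l (hp l hl) a c a' c']
      let π : Pair D :=
        { θ := θ p
          s := s p
          b := b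
          hθ := hθ p
          hb := hb
          star_s := hs p
          ss := hss p
          sθ := csθ p p
          sb := fun a c => hsb _ (hbmem a c)
          θb := fun a c d e => hθb a c _ (hbmem d e) }
      have hsmem : s p ∈ alg (n + 1) :=
        Algebra.subset_adjoin ⟨p, n.lt_succ_self, Or.inl rfl⟩
      have hθmem : ∀ a c, θ p a c ∈ alg (n + 1) := fun a c =>
        Algebra.subset_adjoin ⟨p, n.lt_succ_self, Or.inr ⟨a, c, rfl⟩⟩
      have hbmem' : ∀ a c, b a c ∈ alg (n + 1) := fun a c => hmono n (hbmem a c)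
      have hA : ∀ a c, π.A a c ∈ alg (n + 1) := fun a c =>
        Subalgebra.sum_mem _ fun e _ => mul_mem (hθmem a e) (hbmem' e c)
      have hA' : ∀ a c, π.A' a c ∈ alg (n + 1) := fun a c =>
        Subalgebra.sum_mem _ fun e _ => mul_mem (hθmem e c) (hbmem' a e)
      have hPmem : ∀ a c, π.P a c ∈ alg (n + 1) := fun a c =>
        add_mem (add_mem (mul_mem (add_mem (hθmem 0 0) (hθmem 1 1)) (hθmem a c))
            (mul_mem (mul_mem (mul_mem hsmem hsmem) (add_mem (hbmem' 0 0) (hbmem' 1 1)))
              (hbmem' a c)))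
          (Subalgebra.smul_mem _ (mul_mem hsmem (sub_mem (hA a c) (hA' a c))) _)
      have hUmem : π.U ∈ alg (n + 1) :=
        add_mem hsmem (Subalgebra.smul_mem _ (Subalgebra.sum_mem _ fun a _ => hA a a) _)
      have hh : star π.h = π.h := π.hb.diag_star
      have hG : star π.G = π.G := π.hθ.diag_star
      have hPpos : 0 ≤ diag π.P :=
        add_nonneg
          (CStarAlgebra.nonneg_iff_eq_star_mul_self.2 (π.orderZero.pos 0))
          (CStarAlgebra.nonneg_iff_eq_star_mul_self.2 (π.orderZero.pos 1))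
      have hle : diag π.P ≤ 1 := by
        have h1 : π.h * π.h ≤ 1 := by
          refine (CStarAlgebra.norm_le_one_iff_of_nonneg _ (IsSelfAdjoint.mul_self_nonneg hh)).1 ?_
          calc ‖π.h * π.h‖ ≤ ‖π.h‖ * ‖π.h‖ := norm_mul_le _ _
            _ ≤ 1 := by nlinarith [norm_nonneg π.h, show ‖π.h‖ ≤ 1 from hb1]
        have h2 := star_left_conjugate_le_conjugate h1 π.s
        rw [mul_one, π.star_s] at h2
        calc diag π.P = π.G * π.G + π.s * (π.h * π.h) * π.s := by
              rw [π.diag_P, mul_assoc π.s (π.h * π.h), ← (π.s_h.mul_right π.s_h).eq, ← mul_assoc π.s]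
          _ ≤ π.G * π.G + π.s * π.s := by gcongr
          _ = 1 := by rw [π.ss', add_sub_cancel]
      have hprs : pr (n + 1) = pr n * s p := by
        simp only [pr]
        rw [List.prod_take_succ _ _ (by simpa using hn)]
        simp [p]
      have cpr : Commute (s p) (pr n) := Commute.list_prod_right _ _ fun z hz => by
        obtain ⟨i, rfl⟩ := List.mem_ofFn.1 (List.mem_of_mem_take hz)
        exact css p i
      refine ⟨π.P, R * (1 + π.h), π.orderZero, hPmem, ?_,
        (CStarAlgebra.norm_le_one_iff_of_nonneg _ hPpos).2 hle, ?_, ?_⟩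
      · have e1 : (1 : D) - π.h * π.h = star (pr n) * pr n * (R * (1 + π.h)) := by
          rw [← mul_assoc, ← hH, show diag b = π.h from rfl]
          noncomm_ring
        have cst : Commute (s p) (star (pr n)) := by simpa [hs p] using cpr.star_star
        rw [π.diag_P, hprs, star_mul, hs p]
        calc (1 : D) - (π.G * π.G + π.s * π.s * (π.h * π.h))
            = π.s * π.s * (1 - π.h * π.h) := by rw [mul_sub, mul_one, π.ss']; noncomm_ring
          _ = s p * s p * star (pr n) * pr n * (R * (1 + π.h)) := by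
              rw [e1]; simp only [mul_assoc]; rfl
          _ = _ := by
              congr 1
              rw [← cpr.eq, mul_assoc (s p) (star (pr n)), ← mul_assoc (star (pr n)) (s p),
                ← cst.eq]
              simp only [mul_assoc]
      · calc ‖R * (1 + π.h)‖ ≤ ‖R‖ * ‖1 + π.h‖ := norm_mul_le _ _
          _ ≤ 2 ^ n * (1 + 1) := by
              refine mul_le_mul hR ((norm_add_le _ _).trans (add_le_add ?_ hb1)) (norm_nonneg _)
                (by positivity)
              exact (CStarAlgebra.norm_le_one_iff_of_nonneg (1 : D) zero_le_one).2 le_rfl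
          _ = 2 ^ (n + 1) := by ring
      · intro l hl
        rcases Nat.lt_succ_iff_lt_or_eq.1 hl with h | h
        · obtain ⟨U, hUm, hUe⟩ := hU l h
          refine ⟨π.U * U, mul_mem hUmem (hmono n hUm), fun e he => ?_⟩
          obtain ⟨h1, h2⟩ := hUe e he
          obtain ⟨h3, h4⟩ := π.corner h1
          rw [mul_assoc, star_mul, mul_assoc]
          exact ⟨h3, by rw [h4, h2]⟩
        · obtain rfl : l = p := Fin.ext h
          exact ⟨1, one_mem _, fun e he => ⟨by rw [one_mul]; exact π.top he, by simp⟩⟩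
  obtain ⟨P, R, hP, hPm, hH, hP1, hR, hU⟩ := key m le_rfl
  have hpr : pr m = (List.ofFn s).prod := by
    simp only [pr]
    rw [List.take_of_length_le (by simp)]
  rw [hpr] at hH
  exact ⟨P, R, hP, hPm, hH, hP1, hR, fun l => hU l l.isLt⟩

end Vale.Agent.P095.Amen.Endgame
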