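import Vale.Agent.P095.Amen.End.Seed
import Vale.Agent.P095.Amen.End.Merge
import Vale.Agent.P095.Amen.End.Bounds
import Vale.Agent.P095.Amen.End.Calc

/-!
# P095: one automorphism creates no characters on its fixed algebra

A fixed element of square zero gives a fixed seed; groups of positions have a small source next to
a large mark; the merge of all groups and the row element leave a residue which saturation makes
exact, and a character kills the residue.
-/

namespace Vale.Agent.P095.Amen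

namespace Endgame

open Vale.Agent.P101.KR

noncomputable section

variable {F : Type} [CStarAlgebra F]

/-- Full marks of small defect keep fullness, with at least one witness. -/
theorem exists_witness {e : F} (he : star e = e) {y : F} {K : ℕ} {z : Fin K → F}
    (hz : ∑ i, star (z i) * (star y * y) * z i = 1)
    (hsmall : (∑ i, ‖z i‖ * ‖z i‖) * (2 * ‖y - e * y‖ * ‖y‖ + ‖y - e * y‖ * ‖y - e * y‖) ≤ 1 / 2) :
    ∃ w : Fin (K + 1) → F, ∑ i, star (w i) * (star e * e) * w i = 1 := by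
  let _ : PartialOrder F := CStarAlgebra.spectralOrder F
  have : StarOrderedRing F := CStarAlgebra.spectralOrderedRing F
  let v : Fin K → F := fun i => y * z i
  set M := ∑ i, star (v i) * (star e * e) * v i with hM
  have hMsa : IsSelfAdjoint M := by
    show star M = M
    simp [hM, star_sum, mul_assoc]
  set d := y - e * y with hd
  have hnear : ‖1 - M‖ ≤ 1 / 2 := by
    have e1 : 1 - M = ∑ i, star (z i) * (star y * d + star d * y - star d * d) * z i := by
      rw [hM, ← hz, ← Finset.sum_sub_distrib]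
      refine Finset.sum_congr rfl fun i _ => ?_
      simp only [v, hd, star_sub, star_mul, he]
      noncomm_ring
    rw [e1]
    refine (norm_sum_le _ _).trans (le_trans ?_ hsmall)
    rw [Finset.sum_mul]
    refine Finset.sum_le_sum fun i _ => ?_
    refine (norm_mul_le _ _).trans ?_
    refine (mul_le_mul_of_nonneg_right (norm_mul_le _ _) (norm_nonneg _)).trans ?_
    rw [norm_star, mul_right_comm]
    refine mul_le_mul_of_nonneg_left ?_ (by positivity)
    refine (norm_sub_le _ _).trans (add_le_add ((norm_add_le _ _).trans ?_) ?_)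
    · refine (add_le_add (norm_mul_le _ _) (norm_mul_le _ _)).trans ?_
      rw [norm_star, norm_star, two_mul, add_mul, mul_comm ‖y‖]
    · exact (norm_mul_le _ _).trans (by rw [norm_star])
  have hspec : ∀ t ∈ spectrum ℝ M, 0 < t := by
    have h1 : algebraMap ℝ F (1 / 2) ≤ M := by
      have h := (IsSelfAdjoint.le_algebraMap_norm_self
        (a := 1 - M) ((IsSelfAdjoint.one F).sub hMsa)).trans (algebraMap_mono F hnear)
      have h2 : algebraMap ℝ F (1 / 2) + algebraMap ℝ F (1 / 2) = 1 := by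
        rw [← map_add]; norm_num
      rw [sub_le_iff_le_add', ← h2] at h
      exact le_of_add_le_add_right h
    intro t ht
    linarith [(algebraMap_le_iff_le_spectrum hMsa).1 h1 t ht]
  let is : ℝ → ℝ := fun t => (Real.sqrt t)⁻¹
  have hisc : ContinuousOn is (spectrum ℝ M) :=
    Real.continuous_sqrt.continuousOn.inv₀ fun t ht => (Real.sqrt_pos.2 (hspec t ht)).ne'
  set N := cfc is M with hN
  have hNs : star N = N := (cfc_predicate is M : IsSelfAdjoint _).star_eq
  have hNMN : N * M * N = 1 := by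
    conv_lhs => arg 1; arg 2; rw [← cfc_id' ℝ M hMsa]
    have hic : ContinuousOn (fun t => is t * t) (spectrum ℝ M) := hisc.mul continuousOn_id
    rw [hN, ← cfc_mul is (fun t => t) M hisc continuousOn_id,
      ← cfc_mul (fun t => is t * t) is M hic hisc, ← cfc_const_one ℝ M hMsa]
    refine cfc_congr fun t ht => ?_
    have := (Real.sqrt_pos.2 (hspec t ht)).ne'
    simp only [is]
    field_simp
    rw [Real.sq_sqrt (hspec t ht).le]
  refine ⟨Fin.cons 0 fun i => v i * N, ?_⟩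
  rw [Fin.sum_univ_succ]
  simp only [Fin.cons_zero, Fin.cons_succ, mul_zero, zero_add]
  refine Eq.trans ?_ hNMN
  simp only [hM, Finset.mul_sum, Finset.sum_mul, star_mul, hNs, mul_assoc]

/-- One group: `Q` positions whose source is smaller in class than one mark, with the comparison
element and the mark. -/
theorem exists_group (hC : CompareTarget) (σ : F ≃⋆ₐ[ℂ] F) (hσ : Setting σ) {Q : ℕ} (hQ : 0 < Q)
    {K : ℕ} (hlt : (1 - 1 / (K + 1 : ℝ)) ^ Q < 1 / (K + 1)) {t : Set F}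
    (φ : Fin Q → Cl t →⋆ₐ[ℂ] F) (hφ : ∀ i j, i ≠ j → ∀ a b, Commute (φ i a) (φ j b))
    (hfix : ∀ i, ∀ z : Cl t, σ z = z → σ (φ i z) = φ i z)
    {θ : Fin 2 → Fin 2 → Cl t} {s e : Cl t} (hs : star s = s) (hfe : σ e = e)
    (hse : s * e = 0) (he : star e = e) (hθe : θ 0 0 * e = e) {w : Fin (K + 1) → Cl t}
    (hw : ∑ i, star (w i) * (star e * e) * w i = 1) {η : ℝ} (hη : 0 < η) :
    let S := (List.ofFn fun i => φ i s).prod
    ∃ m x : F, σ m = m ∧ star m = m ∧ ‖x‖ ≤ 1 ∧ bump (η / 2) (star S * S) * x = 0 ∧ m * x = x ∧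
      star x * x * bump η (star S * S) = bump η (star S * S) ∧ φ ⟨0, hQ⟩ (θ 0 0) * m = m := by
  intro S
  set T := star S * S with hT
  set v := star (φ ⟨0, hQ⟩ e) * φ ⟨0, hQ⟩ e with hv
  obtain ⟨g, hg⟩ := exists_two_bump_eq (half_pos hη) S
  have hu : DLe ((2 : ℝ) • bump (η / 2) T) ((1 - 1 / (K + 1 : ℝ)) ^ Q) := by
    rw [hg]; exact dle_prod φ hφ hs hse hw g
  have hfull : FullPos v :=
    ⟨K + 1, fun i => φ ⟨0, hQ⟩ (w i), by simpa [map_star] using congrArg (φ ⟨0, hQ⟩) hw⟩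
  obtain ⟨x, ρ, hρ, hxx, hx⟩ :=
    hC F (hasCopies_of hσ) hσ.central hσ.noChar _ v _ _ 1 hfull hu (dge_mark _ hw) hlt one_pos
  have hvsa : IsSelfAdjoint v := IsSelfAdjoint.star_mul_self _
  obtain ⟨gv, -, hgv⟩ := exists_bump_eq_mul hρ hvsa
  obtain ⟨gv', hgv', -⟩ := exists_bump_eq_mul hρ hvsa
  have hTsa : IsSelfAdjoint T := IsSelfAdjoint.star_mul_self _
  obtain ⟨gT, -, hgT⟩ := exists_bump_eq_mul (half_pos hη) hTsa
  have hφfix : σ v = v := by
    rw [hv, map_mul, map_star, hfix _ e hfe]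
  obtain ⟨hcut, hcut1⟩ := cut_mul_bump hη hTsa
  refine ⟨bump ρ v, x, map_cfc_eq σ hvsa hφfix (continuous_bumpFun ρ), star_bump ρ v, ?_, ?_, hx,
    by rw [hxx]; exact hcut, ?_⟩
  · have h : ‖x‖ * ‖x‖ ≤ 1 := by rw [← CStarRing.norm_star_mul_self, hxx]; exact hcut1
    nlinarith [norm_nonneg x]
  · have hSe : S * φ ⟨0, hQ⟩ e = 0 := by
      obtain ⟨Q', rfl⟩ : ∃ Q', Q = Q' + 1 := ⟨Q - 1, by omega⟩
      have hc : Commute (φ ⟨0, hQ⟩ e) (List.ofFn fun i : Fin Q' => φ i.succ s).prod :=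
        Commute.list_prod_right _ _ fun z hz => by
          obtain ⟨i, rfl⟩ := List.mem_ofFn.1 hz
          exact hφ _ _ (fun h => by simp [Fin.ext_iff] at h) _ _
      show (List.ofFn fun i => φ i s).prod * _ = 0
      rw [List.ofFn_succ, List.prod_cons, mul_assoc, ← hc.eq, ← mul_assoc,
        show φ (0 : Fin (Q' + 1)) s * φ ⟨0, hQ⟩ e = 0 from by
          rw [show (⟨0, hQ⟩ : Fin (Q' + 1)) = 0 from rfl, ← map_mul, hse, map_zero], zero_mul]
    have hTv : T * v = 0 := by
      rw [hT, hv, ← map_star, he, mul_assoc, ← mul_assoc S, hSe, zero_mul, mul_zero]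
    rw [← hx, ← mul_assoc, hgT, hgv', mul_assoc gT, ← mul_assoc T, hTv, zero_mul, mul_zero,
      zero_mul]
  · have h1 : φ ⟨0, hQ⟩ (θ 0 0) * v = v := by
      rw [hv, ← map_star, he, ← mul_assoc, ← map_mul, hθe]
    rw [hgv', ← mul_assoc, h1]

/-- The residue up to `ε`. -/
theorem exists_residue (hC : CompareTarget) (hR : RowTarget) (hS : SquareTarget)
    (σ : F ≃⋆ₐ[ℂ] F) (hσ : Setting σ) {ε : ℝ} (hε : 0 < ε) :
    ∃ (P : Fin 2 → Fin 2 → F) (y d : F), OrderZero P ∧ (∀ a c, σ (P a c) = P a c) ∧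
      ‖diag P‖ ≤ 1 ∧ ‖y‖ ≤ 1 ∧ ‖σ y - y‖ ≤ ε ∧ P 0 0 * y = y ∧
      star d * d = (2 : ℂ) • (star y * y) + diag P - (1 / 2 : ℂ) • 1 := by
  let _ : PartialOrder F := CStarAlgebra.spectralOrder F
  have : StarOrderedRing F := CStarAlgebra.spectralOrderedRing F
  obtain ⟨y₀, hσy₀, hyy₀, K, z, hz⟩ := hS F σ hσ
  -- the fixed seed
  set C := ∑ i, ‖z i‖ * ‖z i‖
  have hC0 : 0 ≤ C := Finset.sum_nonneg fun i _ => mul_self_nonneg _
  set r : ℝ := min 1 (1 / (2 * (C + 1) * (2 * ‖y₀‖ + 1))) with hr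
  have hr0 : 0 < r := lt_min one_pos (by positivity)
  obtain ⟨θ, s, e, hθ, hθfix, hsfix, hefix, hss', hes, hss, hsθ, hθe, hse, hey⟩ :=
    exists_fixed_seed σ hσy₀ hyy₀ (δ := r * r / 3) (by positivity)
  have hd : ‖y₀ - e * y₀‖ ≤ r := by nlinarith [norm_nonneg (y₀ - e * y₀)]
  have hsmall : C * (2 * ‖y₀ - e * y₀‖ * ‖y₀‖ + ‖y₀ - e * y₀‖ * ‖y₀ - e * y₀‖) ≤ 1 / 2 := by
    have h1 : r * (2 * (C + 1) * (2 * ‖y₀‖ + 1)) ≤ 1 :=
      (le_div_iff₀ (by positivity)).1 (min_le_right _ _)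
    have h2 : r * r ≤ r := mul_le_of_le_one_right hr0.le (min_le_left _ _)
    have h3 := mul_le_mul hd hd (norm_nonneg _) hr0.le
    calc C * (2 * ‖y₀ - e * y₀‖ * ‖y₀‖ + ‖y₀ - e * y₀‖ * ‖y₀ - e * y₀‖)
        ≤ C * (2 * r * ‖y₀‖ + r) := by gcongr; linarith
      _ ≤ 1 / 2 := by nlinarith [norm_nonneg y₀]
  obtain ⟨w, hw⟩ := exists_witness hes hz hsmall
  obtain ⟨Q₀, hQ₀⟩ := exists_pow_lt_of_lt_one (show (0 : ℝ) < 1 / (K + 1) by positivity)
    (show 1 - 1 / (K + 1 : ℝ) < 1 by linarith [show (0 : ℝ) < 1 / (K + 1) by positivity])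
  set Q := Q₀ + 1 with hQ
  have hb0 : 0 ≤ 1 - 1 / (K + 1 : ℝ) := by
    have : (1 : ℝ) / (K + 1) ≤ 1 := by rw [div_le_one (by positivity)]; simp
    linarith
  have hlt : (1 - 1 / (K + 1 : ℝ)) ^ Q < 1 / (K + 1) :=
    (pow_le_pow_of_le_one hb0 (by linarith [show (0 : ℝ) < 1 / (K + 1) by positivity])
      (Nat.le_succ Q₀)).trans_lt hQ₀
  -- positions in one group
  choose c hc using hθ.pos
  let W₀ : Set F := (Set.range fun p : Fin 2 × Fin 2 => θ p.1 p.2) ∪ Set.range c ∪ {s, e} ∪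
    Set.range w
  have hW₀ : W₀.Countable := (((Set.finite_range _).union (Set.finite_range _)).union
    (Set.toFinite _)).union (Set.finite_range _) |>.countable
  have hW₀le : W₀ ⊆ Cl (orbitSet σ W₀) := (subset_orbitSet σ W₀).trans (subset_cl _)
  obtain ⟨κ₀⟩ := exists_copies hσ hW₀ Q
  let θ₀ : Fin 2 → Fin 2 → Cl (orbitSet σ W₀) := fun a c' =>
    ⟨θ a c', hW₀le (Or.inl (Or.inl (Or.inl ⟨(a, c'), rfl⟩)))⟩
  let c₀ : Fin 2 → Cl (orbitSet σ W₀) := fun a =>
    ⟨c a, hW₀le (Or.inl (Or.inl (Or.inr ⟨a, rfl⟩)))⟩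
  let s₀ : Cl (orbitSet σ W₀) := ⟨s, hW₀le (Or.inl (Or.inr (Or.inl rfl)))⟩
  let e₀ : Cl (orbitSet σ W₀) := ⟨e, hW₀le (Or.inl (Or.inr (Or.inr rfl)))⟩
  let w₀ : Fin (K + 1) → Cl (orbitSet σ W₀) := fun i => ⟨w i, hW₀le (Or.inr ⟨i, rfl⟩)⟩
  have hfix₀ : ∀ j, ∀ u : Cl (orbitSet σ W₀), σ u = u → σ (κ₀.hom j u) = κ₀.hom j u :=
    fun j u hu => κ₀.equiv j u u hu
  have hθ₀ : OrderZero θ₀ :=
    { star_eq := fun a b => Subtype.ext (hθ.star_eq a b)
      mul_eq := fun a b c' d => Subtype.ext (by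
        have h := hθ.mul_eq a b c' d
        split_ifs at h ⊢ <;> exact h)
      pos := fun a => ⟨c₀ a, Subtype.ext (hc a)⟩ }
  have hs₀ : star s₀ = s₀ := Subtype.ext hss'
  have hss₀ : s₀ * s₀ = 1 - diag θ₀ * diag θ₀ := Subtype.ext hss
  have hsθ₀ : ∀ a b, Commute s₀ (θ₀ a b) := fun a b => Subtype.ext (hsθ a b).eq
  set θ' : Fin Q → Fin 2 → Fin 2 → F := fun j a b => κ₀.hom j (θ₀ a b) with hθ'
  set s' : Fin Q → F := fun j => κ₀.hom j s₀ with hs'
  set S := (List.ofFn s').prod with hSdef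
  have hθ'0 : ∀ j, OrderZero (θ' j) := fun j => orderZero_map_hom _ hθ₀
  have hs'θ : ∀ i j a b, Commute (s' i) (θ' j a b) := fun i j a b => by
    rcases eq_or_ne i j with rfl | h
    exacts [(hsθ₀ a b).map _, κ₀.comm i j h _ _]
  have hs'star : ∀ j, star (s' j) = s' j := fun j => by rw [hs', ← map_star, hs₀]
  have hs's : ∀ i j, Commute (s' i) (s' j) := fun i j => by
    rcases eq_or_ne i j with rfl | h
    exacts [Commute.refl _, κ₀.comm i j h _ _]
  have hSstar : star S = S := star_prod s' (fun i j _ => hs's i j) hs'star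
  have hSs : ∀ j, Commute S (s' j) := fun j => Commute.list_prod_left _ _ fun u hu => by
    obtain ⟨i, rfl⟩ := List.mem_ofFn.1 hu; exact hs's i j
  have hSθ : ∀ j a b, Commute S (θ' j a b) := fun j a b => Commute.list_prod_left _ _ fun u hu => by
    obtain ⟨i, rfl⟩ := List.mem_ofFn.1 hu; exact hs'θ i j a b
  set T := star S * S with hT
  have hTsa : IsSelfAdjoint T := IsSelfAdjoint.star_mul_self S
  have hTs : ∀ j, Commute T (s' j) := fun j => by
    rw [hT, hSstar]; exact (hSs j).mul_left (hSs j)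
  have hTθ : ∀ j a b, Commute T (θ' j a b) := fun j a b => by
    rw [hT, hSstar]; exact (hSθ j a b).mul_left (hSθ j a b)
  have hSfix : σ S = S := by
    rw [hSdef, map_list_prod, List.map_ofFn]
    exact congrArg List.prod (congrArg List.ofFn (funext fun j => hfix₀ j s₀ hsfix))
  have hTfix : σ T = T := by rw [hT, map_mul, map_star, hSfix]
  -- the number of groups and the level
  obtain ⟨n, hn, hrow⟩ := hR ε hε
  set η₀ : ℝ := 1 / (4 * (n : ℝ) * 2 ^ (n * Q)) with hη₀
  have hη₀0 : 0 < η₀ := by positivity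
  set η : ℝ := η₀ * η₀ with hη
  have hη0 : 0 < η := mul_pos hη₀0 hη₀0
  obtain ⟨μ, x, hμfix, hμs, hx1, hxs', hμx, hxs, hθμ⟩ :=
    exists_group hC σ hσ (Nat.succ_pos Q₀) hlt κ₀.hom κ₀.comm hfix₀ (θ := θ₀) (s := s₀) (e := e₀)
      hs₀ hefix (Subtype.ext hse) (Subtype.ext hes) (Subtype.ext hθe) (w := w₀)
      (Subtype.ext (by simpa using hw)) hη0
  change bump (η / 2) T * x = 0 at hxs'
  change star x * x * bump η T = bump η T at hxs
  -- the groups
  let W₁ : Set F := (Set.range fun p : Fin Q × Fin 2 × Fin 2 => θ' p.1 p.2.1 p.2.2) ∪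
    (Set.range fun p : Fin Q × Fin 2 => κ₀.hom p.1 (c₀ p.2)) ∪ Set.range s' ∪
    {bump η T, bump (η / 2) T, μ, x}
  have hW₁ : W₁.Countable := (((Set.finite_range _).union (Set.finite_range _)).union
    (Set.finite_range _)).union (Set.toFinite _) |>.countable
  have hW₁le : W₁ ⊆ Cl (orbitSet σ W₁) := (subset_orbitSet σ W₁).trans (subset_cl _)
  obtain ⟨κ⟩ := exists_copies hσ hW₁ n
  let θ₁ : Fin Q → Fin 2 → Fin 2 → Cl (orbitSet σ W₁) := fun j a b =>
    ⟨θ' j a b, hW₁le (Or.inl (Or.inl (Or.inl ⟨(j, a, b), rfl⟩)))⟩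
  let c₁ : Fin Q → Fin 2 → Cl (orbitSet σ W₁) := fun j a =>
    ⟨κ₀.hom j (c₀ a), hW₁le (Or.inl (Or.inl (Or.inr ⟨(j, a), rfl⟩)))⟩
  let s₁ : Fin Q → Cl (orbitSet σ W₁) := fun j => ⟨s' j, hW₁le (Or.inl (Or.inr ⟨j, rfl⟩))⟩
  let f₁ : Cl (orbitSet σ W₁) := ⟨bump η T, hW₁le (Or.inr (Or.inl rfl))⟩
  let g₁ : Cl (orbitSet σ W₁) := ⟨bump (η / 2) T, hW₁le (Or.inr (Or.inr (Or.inl rfl)))⟩
  let μ₁ : Cl (orbitSet σ W₁) := ⟨μ, hW₁le (Or.inr (Or.inr (Or.inr (Or.inl rfl))))⟩
  let x₁ : Cl (orbitSet σ W₁) := ⟨x, hW₁le (Or.inr (Or.inr (Or.inr (Or.inr rfl))))⟩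
  have hfix : ∀ i, ∀ u : Cl (orbitSet σ W₁), σ u = u → σ (κ.hom i u) = κ.hom i u :=
    fun i u hu => κ.equiv i u u hu
  have hθ₁ : ∀ j, OrderZero (θ₁ j) := fun j =>
    { star_eq := fun a b => Subtype.ext ((hθ'0 j).star_eq a b)
      mul_eq := fun a b c' d => Subtype.ext (by
        have h := (hθ'0 j).mul_eq a b c' d
        split_ifs at h ⊢ <;> exact h)
      pos := fun a => ⟨c₁ j a, Subtype.ext (by
        show θ' j a a = star (κ₀.hom j (c₀ a)) * κ₀.hom j (c₀ a)
        rw [hθ', ← map_star, ← map_mul]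
        exact congrArg _ (Subtype.ext (hc a)))⟩ }
  set θA : Fin (n * Q) → Fin 2 → Fin 2 → F := fun l a b => κ.hom l.divNat (θ₁ l.modNat a b)
    with hθA
  set sA : Fin (n * Q) → F := fun l => κ.hom l.divNat (s₁ l.modNat) with hsA
  have hsθA : ∀ l l' a b, Commute (sA l) (θA l' a b) := fun l l' a b => by
    simp only [hsA, hθA]
    by_cases h : l.divNat = l'.divNat
    · rw [h]
      exact (show Commute (s₁ l.modNat) (θ₁ l'.modNat a b) from
        Subtype.ext (hs'θ _ _ a b).eq).map _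
    · exact κ.comm _ _ h _ _
  obtain ⟨P, R, hP, hPmem, hX, hP1, hR1, hU⟩ := exists_fixed_merge θA sA
    (fun l => orderZero_map_hom _ (hθ₁ _))
    (fun l => by
      simp only [hsA]; rw [← map_star]; exact congrArg _ (Subtype.ext (hs'star _)))
    (fun l => by
      simp only [hsA, hθA]
      rw [← map_mul, show s₁ l.modNat * s₁ l.modNat
          = 1 - diag (θ₁ l.modNat) * diag (θ₁ l.modNat) from Subtype.ext (by
        show s' l.modNat * s' l.modNat = 1 - diag (θ' l.modNat) * diag (θ' l.modNat)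
        simp only [hs', hθ', diag, ← map_mul, hss₀, map_sub, map_one]
        simp only [map_mul, map_add])]
      simp only [diag, map_sub, map_one, map_mul, map_add])
    (fun l l' => by
      simp only [hsA]
      by_cases h : l.divNat = l'.divNat
      · rw [h]
        exact (show Commute (s₁ l.modNat) (s₁ l'.modNat) from Subtype.ext (hs's _ _).eq).map _
      · exact κ.comm _ _ h _ _)
    hsθA
    (fun l l' hl a b a' b' => by
      simp only [hθA]
      by_cases h : l.divNat = l'.divNat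
      · have hm : l.modNat ≠ l'.modNat := fun hm => hl (Fin.ext (by
          have h1 := congrArg Fin.val h
          have h2 := congrArg Fin.val hm
          simp only [Fin.coe_divNat, Fin.coe_modNat] at h1 h2
          rw [← Nat.div_add_mod (l : ℕ) Q, ← Nat.div_add_mod (l' : ℕ) Q, h1, h2]))
        rw [h]
        exact (show Commute (θ₁ l.modNat a b) (θ₁ l'.modNat a' b') from
          Subtype.ext (κ₀.comm _ _ hm _ _).eq).map _
      · exact κ.comm _ _ h _ _)
  -- what commutes with the data, and what is fixed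
  have hgen : ∀ u ∈ mergeData θA sA (n * Q), σ u = u := by
    rintro u ⟨l, -, rfl | ⟨a, b, rfl⟩⟩
    · exact hfix _ (s₁ _) (hfix₀ _ s₀ hsfix)
    · exact hfix _ (θ₁ _ a b) (hfix₀ _ (θ₀ a b) (hθfix a b))
  have hσalg : ∀ u ∈ Algebra.adjoin ℂ (mergeData θA sA (n * Q)), σ u = u := fun u hu =>
    (Algebra.adjoin_le (S := (fixedBy σ).toSubalgebra) fun v hv => hgen v hv) hu
  have hcomm : ∀ u ∈ Algebra.adjoin ℂ (mergeData θA sA (n * Q)), ∀ (j : Fin n) (η' : ℝ)
      (hb : bump η' T ∈ Cl (orbitSet σ W₁)), Commute u (κ.hom j ⟨bump η' T, hb⟩) := by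
    intro u hu j η' hb
    refine (Algebra.commute_of_mem_adjoin_of_forall_mem_commute hu ?_).symm
    rintro v ⟨l, -, rfl | ⟨a, b, rfl⟩⟩
    · simp only [hsA]
      by_cases h : j = l.divNat
      · rw [h]
        exact (show Commute (⟨bump η' T, hb⟩ : Cl (orbitSet σ W₁)) (s₁ _) from
          Subtype.ext (hTsa.commute_cfc (hTs _) _).eq).map _
      · exact κ.comm _ _ h _ _
    · simp only [hθA]
      by_cases h : j = l.divNat
      · rw [h]
        exact (show Commute (⟨bump η' T, hb⟩ : Cl (orbitSet σ W₁)) (θ₁ _ a b) from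
          Subtype.ext (hTsa.commute_cfc (hTθ _ a b) _).eq).map _
      · exact κ.comm _ _ h _ _
  choose U hUmem hUe using hU
  let first : Fin n → Fin (n * Q) := fun i => ⟨i * Q, by
    calc (i : ℕ) * Q < (i + 1) * Q := by rw [add_mul, one_mul]; omega
      _ ≤ n * Q := Nat.mul_le_mul_right _ i.2⟩
  have hfirst : ∀ i, (first i).divNat = i ∧ (first i).modNat = ⟨0, Nat.succ_pos Q₀⟩ := fun i =>
    ⟨Fin.ext (by simp [first, hQ]), Fin.ext (by simp [first])⟩
  have hμ1 : ∀ i, θA (first i) 0 0 * κ.hom i μ₁ = κ.hom i μ₁ := fun i => by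
    simp only [hθA]
    rw [(hfirst i).1, (hfirst i).2, ← map_mul]
    exact congrArg _ (Subtype.ext hθμ)
  -- the row
  obtain ⟨y, -, hy1, hyfix, -, -, -, ⟨c', hc'⟩, hyP⟩ := hrow F σ _
    (countable_orbitSet σ hW₁) (image_orbitSet σ W₁) f₁ g₁ μ₁ x₁
    (map_cfc_eq σ hTsa hTfix (continuous_bumpFun _)) (map_cfc_eq σ hTsa hTfix (continuous_bumpFun _))
    hμfix (star_bump _ _) (star_bump _ _) (norm_bump_le _ _) (norm_bump_le _ _) hx1
    (Subtype.ext (cfc_commute_cfc _ _ T).eq) (Subtype.ext (bump_mul_bump hη0 T))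
    (Subtype.ext hxs') (Subtype.ext hμx) (Subtype.ext hxs) κ (fun i => U (first i))
    (fun i => hσalg _ (hUmem _))
    (fun i j => ⟨hcomm _ (hUmem _) j _ f₁.2, hcomm _ (hUmem _) j _ g₁.2⟩)
    (fun i => (hUe _ _ (hμ1 i)).2)
  set X := 1 - diag P with hXdef
  set Pf := (List.ofFn fun i => κ.hom i f₁).prod with hPf
  set Pr := (List.ofFn sA).prod with hPr
  have hff : ∀ i, star (κ.hom i f₁) = κ.hom i f₁ := fun i => by
    rw [← map_star]; exact congrArg _ (Subtype.ext (star_bump _ _))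
  have hfc : ∀ i j : Fin n, i ≠ j → Commute (κ.hom i f₁) (κ.hom j f₁) :=
    fun i j h => κ.comm i j h _ _
  have hPfs : star Pf = Pf := star_prod _ hfc hff
  have hXPf : Commute X Pf := by
    have hd : diag P ∈ Algebra.adjoin ℂ (mergeData θA sA (n * Q)) :=
      add_mem (hPmem 0 0) (hPmem 1 1)
    refine Commute.sub_left (Commute.one_left _) (Commute.list_prod_right _ _ fun u hu => ?_)
    obtain ⟨i, rfl⟩ := List.mem_ofFn.1 hu
    exact hcomm _ hd i _ f₁.2
  let S₁ : Cl (orbitSet σ W₁) := (List.ofFn s₁).prod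
  have hS₁ : (S₁ : F) = S := by
    show (Cl (orbitSet σ W₁)).subtype (List.ofFn s₁).prod = S
    rw [map_list_prod, List.map_ofFn]; rfl
  have hPr' : Pr = (List.ofFn fun i => κ.hom i S₁).prod := by
    rw [hPr, hsA, prod_ofFn_grouped fun i j => κ.hom i (s₁ j)]
    refine congrArg List.prod (congrArg List.ofFn (funext fun i => ?_))
    rw [map_list_prod, List.map_ofFn]; rfl
  have hsub : ∀ (i : Fin n) (u : Cl (orbitSet σ W₁)), ‖(u : F)‖ ≤ 1 → ‖κ.hom i u‖ ≤ 1 :=
    fun i u hu => (NonUnitalStarAlgHom.norm_apply_le (κ.hom i) u).trans hu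
  have hs'1 : ∀ j, ‖s' j‖ ≤ 1 := fun j => by
    refine (NonUnitalStarAlgHom.norm_apply_le (κ₀.hom j) s₀).trans ?_
    show ‖s‖ ≤ 1
    have h : s * s ≤ 1 := by
      rw [hss]; exact sub_le_self _ (IsSelfAdjoint.mul_self_nonneg hθ.diag_star)
    have h' := (CStarAlgebra.norm_le_one_iff_of_nonneg _
      (IsSelfAdjoint.mul_self_nonneg hss')).2 h
    rw [show s * s = star s * s by rw [hss'], CStarRing.norm_star_mul_self] at h'
    nlinarith [norm_nonneg s]
  have hPr1 : ‖Pr‖ ≤ 1 := hPr' ▸ norm_prod_le_one _ fun i =>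
    hsub i S₁ (hS₁ ▸ norm_prod_le_one _ hs'1)
  have hsmallX : ‖X * (1 - Pf * Pf)‖ ≤ 1 / 2 := by
    have htel : ‖Pr * (1 - Pf * Pf)‖ ≤ n * η₀ := by
      rw [hPr', hPf, prod_mul_prod _ hfc]
      refine norm_prod_mul_one_sub_le _ _ (fun i => hsub i S₁ (hS₁ ▸ norm_prod_le_one _ hs'1))
        (fun i => ?_) (fun i j h => κ.comm i j h _ _ |>.mul_right (κ.comm i j h _ _)) fun i => ?_
      · exact (norm_mul_le _ _).trans (mul_le_one₀ (hsub i _ (norm_bump_le _ _)) (norm_nonneg _)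
          (hsub i _ (norm_bump_le _ _)))
      · rw [← map_mul, ← map_one (κ.hom i), ← map_sub, ← map_mul]
        refine (NonUnitalStarAlgHom.norm_apply_le (κ.hom i) _).trans ?_
        show ‖(S₁ : F) * (1 - bump η T * bump η T)‖ ≤ η₀
        rw [hS₁]
        exact norm_mul_one_sub_bump_le hη0 hη₀0.le le_rfl S
    have hFs : star (1 - Pf * Pf) = 1 - Pf * Pf := by rw [star_sub, star_one, star_mul, hPfs]
    have htel' : ‖(1 - Pf * Pf) * star Pr‖ ≤ n * η₀ := by
      rwa [← norm_star, star_mul, star_star, hFs]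
    rw [((Commute.one_right X).sub_right (hXPf.mul_right hXPf)).eq, hX]
    simp only [← mul_assoc]
    calc _ ≤ ‖(1 - Pf * Pf) * star Pr‖ * ‖Pr‖ * ‖R‖ :=
          (norm_mul_le _ _).trans (mul_le_mul_of_nonneg_right (norm_mul_le _ _) (norm_nonneg _))
      _ ≤ n * η₀ * 1 * 2 ^ (n * Q) := by gcongr
      _ ≤ 1 / 2 := by
          rw [hη₀]
          have : (0 : ℝ) < n := by exact_mod_cast hn
          field_simp
          norm_num
  have hX0 : 0 ≤ 1 - X := by
    rw [hXdef, sub_sub_cancel]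
    exact add_nonneg (CStarAlgebra.nonneg_iff_eq_star_mul_self.2 (hP.pos 0))
      (CStarAlgebra.nonneg_iff_eq_star_mul_self.2 (hP.pos 1))
  have hXs : star X = X := by rw [hXdef, star_sub, star_one, hP.diag_star]
  have h1 : 0 ≤ Pf * (1 - X) * Pf := by
    have h := star_left_conjugate_nonneg hX0 Pf
    rwa [hPfs] at h
  have h2 : 0 ≤ algebraMap ℝ F (1 / 2) - X * (1 - Pf * Pf) := by
    have hsa : IsSelfAdjoint (X * (1 - Pf * Pf)) := by
      show star _ = _
      rw [star_mul, star_sub, star_one, star_mul, hPfs, hXs,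
        ((Commute.one_right X).sub_right (hXPf.mul_right hXPf)).eq]
    exact sub_nonneg.2 (hsa.le_algebraMap_norm_self.trans (algebraMap_mono F hsmallX))
  have hpos : 0 ≤ (2 : ℂ) • (star y * y) + diag P - (1 / 2 : ℂ) • (1 : F) := by
    have e1 : Pf * (1 - X) * Pf = Pf * Pf - X * (Pf * Pf) := by
      rw [mul_sub, mul_one, sub_mul, ← hXPf.eq, mul_assoc]
    have e2 : (2 : ℂ) • (star y * y) + diag P - (1 / 2 : ℂ) • (1 : F)
        = (2 : ℝ) • (star c' * c') + Pf * (1 - X) * Pf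
          + (algebraMap ℝ F (1 / 2) - X * (1 - Pf * Pf)) := by
      rw [e1, ← hc', smul_sub, smul_smul,
        show diag P = 1 - X by rw [hXdef, sub_sub_cancel], mul_sub, mul_one,
        Algebra.algebraMap_eq_smul_one,
        show (2 : ℂ) • (star y * y) = (2 : ℝ) • (star y * y) by
          rw [← Complex.coe_smul]; norm_num,
        show (1 / 2 : ℂ) • (1 : F) = (1 / 2 : ℝ) • (1 : F) by
          rw [← Complex.coe_smul]; norm_num,
        show (2 : ℝ) * (1 / 2) = 1 by norm_num, one_smul]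
      have e3 : (1 / 2 : ℝ) • (1 : F) + (1 / 2 : ℝ) • (1 : F) = 1 := by
        rw [← add_smul]; norm_num
      linear_combination (norm := module) (-1 : ℝ) • e3
    rw [e2]
    exact add_nonneg (add_nonneg (smul_nonneg zero_le_two (star_mul_self_nonneg _)) h1) h2
  obtain ⟨d, hd'⟩ := CStarAlgebra.nonneg_iff_eq_star_mul_self.1 hpos
  exact ⟨P, y, d, hP, fun a b => hσalg _ (hPmem a b), hP1, hy1, hyfix,
    hyP (P 0 0) fun i => (hUe _ _ (hμ1 i)).1, hd'.symm⟩

end

end Endgame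

open Endgame Vale.Agent.P101.KR

/-- One automorphism creates no characters on its fixed algebra. The witness bound is not
needed. -/
theorem zcore_of (hC : CompareTarget) (_hW : WitnessTarget) (hR : RowTarget) (hS : SquareTarget) :
    ZCoreTarget := by
  intro F _ σ hσ
  refine ⟨fun χ => ?_⟩
  -- variables: the residue, the four values of the merge, the witness
  let M : Fin 6 → Term 6 := fun i => .var i
  let rels : List (Term 6) :=
    [.mul (M 2) (M 2),
      .add (.mul (M 1) (M 1)) (.smul (-1) (.mul (M 2) (M 3))),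
      .add (.mul (M 4) (M 4)) (.smul (-1) (.mul (M 3) (M 2))),
      .add (.mul (M 1) (M 0)) (.smul (-1) (M 0)),
      .add (.mul (.adj (M 5)) (M 5)) (.smul (-1)
        (.add (.smul 2 (.mul (.adj (M 0)) (M 0)))
          (.add (.add (M 1) (M 4)) (.smul (-(1 / 2)) .one))))]
  obtain ⟨x, hx, hfix⟩ := hσ.saturated 6 {0, 1, 2, 3, 4} rels 4 (fun ε hε => by
    let _ : PartialOrder F := CStarAlgebra.spectralOrder F
    have : StarOrderedRing F := CStarAlgebra.spectralOrderedRing F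
    obtain ⟨P, y, d, hP, hPfix, hP1, hy1, hyfix, hPy, hd⟩ := exists_residue hC hR hS σ hσ hε
    have hpos : ∀ a, 0 ≤ P a a := fun a => CStarAlgebra.nonneg_iff_eq_star_mul_self.2 (hP.pos a)
    have hPaa : ∀ a, ‖P a a‖ ≤ 1 := fun a =>
      (CStarAlgebra.norm_le_norm_of_nonneg_of_le (hpos a) (by
        revert a; simp only [Fin.forall_fin_two, diag]
        exact ⟨le_add_of_nonneg_right (hpos 1), le_add_of_nonneg_left (hpos 0)⟩)).trans hP1
    have hPab : ∀ a b, ‖P a b‖ ≤ 1 := fun a b => by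
      have h : ‖P a b‖ * ‖P a b‖ ≤ 1 := by
        rw [← CStarRing.norm_star_mul_self, hP.star_eq, hP.mul_eq, if_pos rfl]
        exact (norm_mul_le _ _).trans (mul_le_one₀ hP1 (norm_nonneg _) (hPaa b))
      nlinarith [norm_nonneg (P a b)]
    have hd2 : ‖d‖ * ‖d‖ ≤ 4 := by
      rw [← CStarRing.norm_star_mul_self, hd]
      refine (norm_sub_le _ _).trans ((add_le_add (norm_add_le _ _) le_rfl).trans ?_)
      rw [norm_smul, norm_smul, CStarRing.norm_star_mul_self]
      have h1 := norm_one_le (F := F)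
      norm_num
      nlinarith [mul_le_one₀ hy1 (norm_nonneg _) hy1]
    refine ⟨![y, P 0 0, P 0 1, P 1 0, P 1 1, d], ?_, ?_, ?_⟩
    · intro i
      fin_cases i
      · exact hy1.trans (by norm_num)
      · exact (hPab 0 0).trans (by norm_num)
      · exact (hPab 0 1).trans (by norm_num)
      · exact (hPab 1 0).trans (by norm_num)
      · exact (hPab 1 1).trans (by norm_num)
      · show ‖d‖ ≤ 4
        nlinarith [norm_nonneg d]
    · intro r hr
      refine le_of_eq_of_le (norm_eq_zero.2 ?_) hε.le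
      simp only [rels, List.mem_cons, List.not_mem_nil, or_false] at hr
      rcases hr with rfl | rfl | rfl | rfl | rfl <;> simp [M, Term.eval]
      · simp [hP.mul_eq]
      · simp [hP.mul_eq]
      · simp [hP.mul_eq]
      · rw [hPy, add_neg_cancel]
      · rw [hd, diag]; module
    · intro i hi
      simp only [Finset.mem_insert, Finset.mem_singleton] at hi
      rcases hi with rfl | rfl | rfl | rfl | rfl
      · exact hyfix
      all_goals simp [hPfix, hε.le])
  simp only [rels, List.forall_mem_cons, List.not_mem_nil, IsEmpty.forall_iff,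
    M, Term.eval, neg_smul, one_smul] at hx
  obtain ⟨hQ, hP00, hP11, hPy, hd, -⟩ := hx
  have hmem : ∀ i : Fin 6, i ≠ 5 → x i ∈ fixedBy σ := fun i hi => hfix i (by
    revert hi; fin_cases i <;> simp)
  let y : fixedBy σ := ⟨x 0, hmem 0 (by decide)⟩
  let a : fixedBy σ := ⟨x 1, hmem 1 (by decide)⟩
  let b : fixedBy σ := ⟨x 2, hmem 2 (by decide)⟩
  let c : fixedBy σ := ⟨x 3, hmem 3 (by decide)⟩
  let a' : fixedBy σ := ⟨x 4, hmem 4 (by decide)⟩
  have e0 : b * b = 0 := Subtype.ext hQ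
  have e1 : a * a = b * c := Subtype.ext (by simpa [add_neg_eq_zero] using hP00)
  have e2 : a' * a' = c * b := Subtype.ext (by simpa [add_neg_eq_zero] using hP11)
  have e3 : a * y = y := Subtype.ext (by simpa [add_neg_eq_zero] using hPy)
  have hb : χ b = 0 := mul_self_eq_zero.1 (by rw [← map_mul, e0, map_zero])
  have ha : χ a = 0 := mul_self_eq_zero.1 (by rw [← map_mul, e1, map_mul, hb, zero_mul])
  have ha' : χ a' = 0 := mul_self_eq_zero.1 (by rw [← map_mul, e2, map_mul, hb, mul_zero])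
  have hy : χ y = 0 := by rw [← e3, map_mul, ha, zero_mul]
  -- the character is zero on an element that is invertible in the fixed algebra
  let Z : fixedBy σ := (2 : ℂ) • (star y * y) + (a + a')
  have hZ : (Z : F) = star (x 5) * x 5 + algebraMap ℝ F (1 / 2) := by
    rw [eq_comm, Algebra.algebraMap_eq_smul_one, show (1 / 2 : ℝ) • (1 : F) = (1 / 2 : ℂ) • 1 by
      rw [← Complex.coe_smul]; norm_num]
    show _ = (2 : ℂ) • (star (x 0) * x 0) + (x 1 + x 4)
    rw [eq_of_sub_eq_zero ((sub_eq_add_neg _ _).trans hd)]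
    module
  have hunit : IsUnit (Z : F) := by
    let _ : PartialOrder F := CStarAlgebra.spectralOrder F
    have : StarOrderedRing F := CStarAlgebra.spectralOrderedRing F
    have hle : algebraMap ℝ F (1 / 2) ≤ Z := by
      rw [hZ]; exact le_add_of_nonneg_left (star_mul_self_nonneg _)
    have hsa : IsSelfAdjoint (Z : F) := by
      rw [hZ]
      exact (IsSelfAdjoint.star_mul_self _).add (.algebraMap F (.all _))
    refine (spectrum.zero_notMem_iff ℝ).1 fun h0 => ?_
    linarith [(algebraMap_le_iff_le_spectrum hsa).1 hle 0 h0]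
  obtain ⟨u, hu⟩ := hunit
  have hinv : σ (↑u⁻¹ : F) = ↑u⁻¹ := by
    refine (Units.inv_eq_of_mul_eq_one_right ?_).symm
    have h := congrArg σ u.mul_inv
    rwa [map_mul, map_one, show σ (u : F) = u by rw [hu]; exact Z.2] at h
  have h1 : Z * ⟨↑u⁻¹, hinv⟩ = 1 := Subtype.ext (by
    show (Z : F) * ↑u⁻¹ = 1
    rw [← hu, Units.mul_inv])
  have h := congrArg χ h1
  simp [Z, hy, ha, ha'] at h

end Vale.Agent.P095.Amen
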