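import Vale.Agent.P095.Amen.Targets
import Vale.Agent.P101.KR.Interfaces

/-!
# P095: an order zero map of `M₂` fixed by the automorphism

A fixed element of square zero gives, by functional calculus, a fixed order zero map, the root `s`
of `1 - θ(1)²` and a mark `e` with `θ(e₀₀) e = e` and `s e = 0` that almost supports `y`.
-/

namespace Vale.Agent.P095.Amen.Endgame

open Vale.Agent.P101.KR
open scoped CStarAlgebra

variable {F : Type} [CStarAlgebra F]

/-- Functional calculus of a fixed element is fixed. -/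
theorem map_cfc_eq (σ : F ≃⋆ₐ[ℂ] F) {a : F} (ha : IsSelfAdjoint a) (h : σ a = a) {f : ℝ → ℝ}
    (hf : Continuous f) : σ (cfc f a) = cfc f a := by
  rw [StarAlgHomClass.map_cfc σ f a hf.continuousOn (StarAlgEquiv.isometry σ).continuous ha
    (h.symm ▸ ha), h]

/-- A seed natural in `y`, with two nested marks. -/
theorem exists_seed_natural {y : F} (hyy : y * y = 0) {δ : ℝ} (hδ : 0 < δ) :
    ∃ (θ : Fin 2 → Fin 2 → F) (s e e' : F), OrderZero θ ∧
      (∀ σ : F ≃⋆ₐ[ℂ] F, σ y = y →
        (∀ a c, σ (θ a c) = θ a c) ∧ σ s = s ∧ σ e = e ∧ σ e' = e') ∧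
      star s = s ∧ star e = e ∧ star e' = e' ∧ s * s = 1 - diag θ * diag θ ∧
      (∀ a c, Commute s (θ a c)) ∧ θ 0 0 * e = e ∧ s * e = 0 ∧ e * e' = e' ∧
      ‖y - e' * y‖ * ‖y - e' * y‖ ≤ 4 * δ := by
  let _ := CStarAlgebra.spectralOrder F
  let _ := CStarAlgebra.spectralOrderedRing F
  have hyy' : star y * star y = 0 := by rw [← star_mul, hyy, star_zero]
  set p := star y * y with hp
  set q := y * star y with hq
  set A := p + q with hA
  have hAsa : IsSelfAdjoint A :=
    (IsSelfAdjoint.star_mul_self y).add (IsSelfAdjoint.mul_star_self y)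
  have hσA : ∀ σ : F ≃⋆ₐ[ℂ] F, σ y = y → σ A = A := fun σ hσy => by
    simp [hA, hp, hq, map_star, hσy]
  have hAy : Commute A y := by
    show A * y = y * A
    simp only [hA, hp, hq, add_mul, mul_add, mul_assoc, hyy, mul_zero, zero_add]
    rw [← mul_assoc y y, hyy, zero_mul, add_zero]
  have hAy' : Commute A (star y) := by simpa [hAsa.star_eq] using hAy.star_star
  have hcy : ∀ f : ℝ → ℝ, Commute (cfc f A) y := fun f => hAsa.commute_cfc hAy f
  have hcy' : ∀ f : ℝ → ℝ, Commute (cfc f A) (star y) := fun f => hAsa.commute_cfc hAy' f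
  have hsa : ∀ f : ℝ → ℝ, star (cfc f A) = cfc f A := fun f =>
    (cfc_predicate f A : IsSelfAdjoint _).star_eq
  have hmul : ∀ {f g h : ℝ → ℝ}, Continuous f → Continuous g → (∀ t, f t * g t = h t) →
      cfc f A * cfc g A = cfc h A := fun {f g h} hf hg hfg => by
    rw [← cfc_mul f g A hf.continuousOn hg.continuousOn, funext hfg]
  let g : ℝ → ℝ := fun t => min 1 (max 0 ((t - δ) / δ))
  let K : ℝ → ℝ := fun t => min 1 (max 0 ((t - 2 * δ) / δ))
  let den : ℝ → ℝ := fun t => max t δ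
  let ψ : ℝ → ℝ := fun t => g t / den t
  let φ : ℝ → ℝ := fun t => g t / Real.sqrt (den t)
  let sψ : ℝ → ℝ := fun t => Real.sqrt (ψ t)
  let sg : ℝ → ℝ := fun t => Real.sqrt (1 - g t * g t)
  have hden : ∀ t, 0 < den t := fun t => lt_max_of_lt_right hδ
  have hgc : Continuous g := by fun_prop
  have hKc : Continuous K := by fun_prop
  have hdc : Continuous den := by fun_prop
  have hψc : Continuous ψ := hgc.div hdc fun t => (hden t).ne'
  have hφc : Continuous φ := hgc.div hdc.sqrt fun t => (Real.sqrt_pos.2 (hden t)).ne'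
  have hsψc : Continuous sψ := hψc.sqrt
  have hsgc : Continuous sg := (continuous_const.sub (hgc.mul hgc)).sqrt
  have hg0 : ∀ t, 0 ≤ g t := fun t => le_min zero_le_one (le_max_left _ _)
  have hg1 : ∀ t, g t ≤ 1 := fun t => min_le_left _ _
  have htψ : ∀ t, t * ψ t = g t := fun t => by
    rcases le_or_gt t δ with h | h
    · have : (t - δ) / δ ≤ 0 := div_nonpos_of_nonpos_of_nonneg (by linarith) hδ.le
      have : g t = 0 := by simp [g, max_eq_left this]
      simp [ψ, this]
    · simp only [ψ, den, max_eq_left h.le]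
      field_simp [(hδ.trans h).ne']
  have hφφ : ∀ t, φ t * φ t = g t * ψ t := fun t => by
    simp only [φ, ψ]
    rw [div_mul_div_comm, Real.mul_self_sqrt (hden t).le, mul_div_assoc]
  have hgK : ∀ t, g t * K t = K t := fun t => by
    rcases le_or_gt t (2 * δ) with h | h
    · have : (t - 2 * δ) / δ ≤ 0 := div_nonpos_of_nonpos_of_nonneg (by linarith) hδ.le
      simp [K, max_eq_left this]
    · have : 1 ≤ (t - δ) / δ := by rw [le_div_iff₀ hδ]; linarith
      simp [g, max_eq_right (zero_le_one.trans this), min_eq_left this]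
  set G := cfc g A with hG
  set Ψ := cfc ψ A with hΨ
  set Φ := cfc φ A with hΦ
  set R := cfc sψ A with hR
  set KA := cfc K A with hKA
  set S := cfc sg A with hS
  have hAΨ : A * Ψ = G := by
    conv_lhs => arg 1; rw [← cfc_id' ℝ A hAsa]
    exact hmul continuous_id hψc htψ
  have hΦΦ : Φ * Φ = G * Ψ := by
    rw [hmul (h := fun t => g t * ψ t) hφc hφc hφφ, ← hmul (h := fun t => g t * ψ t) hgc hψc
      fun t => rfl]
  have hRR : R * R = Ψ :=
    hmul hsψc hsψc fun t => Real.mul_self_sqrt (div_nonneg (hg0 t) (hden t).le)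
  have hΨΦ : Commute Ψ Φ := cfc_commute_cfc ψ φ A
  have hcq : ∀ f : ℝ → ℝ, Commute (cfc f A) q := fun f => (hcy f).mul_right (hcy' f)
  have hcp : ∀ f : ℝ → ℝ, Commute (cfc f A) p := fun f => (hcy' f).mul_right (hcy f)
  let θ : Fin 2 → Fin 2 → F := ![![q * Ψ, y * Φ], ![Φ * star y, p * Ψ]]
  have h00 : θ 0 0 = q * Ψ := rfl
  have h11 : θ 1 1 = p * Ψ := rfl
  have hdiag : diag θ = G := by rw [diag, h00, h11, add_comm, ← add_mul, ← hA, hAΨ]
  have hstar : ∀ a b, star (θ a b) = θ b a := by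
    have e0 : star (θ 0 0) = θ 0 0 := by
      rw [h00, hq, star_mul, star_mul, star_star, hsa, (hcq ψ).eq]
    have e1 : star (θ 1 1) = θ 1 1 := by
      rw [h11, hp, star_mul, star_mul, star_star, hsa, (hcp ψ).eq]
    simp only [Fin.forall_fin_two]
    exact ⟨⟨e0, by simp [θ, hΦ, hsa]⟩, by simp [θ, hΦ, hsa], e1⟩
  have z1 : q * p = 0 := by rw [hp, hq, mul_assoc, ← mul_assoc (star y), hyy']; simp
  have z2 : p * q = 0 := by rw [hp, hq, mul_assoc, ← mul_assoc y, hyy]; simp
  have z3 : q * star y = 0 := by rw [hq, mul_assoc, hyy', mul_zero]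
  have z4 : y * q = 0 := by rw [hq, ← mul_assoc, hyy, zero_mul]
  have z5 : star y * p = 0 := by rw [hp, ← mul_assoc, hyy', zero_mul]
  have z6 : p * y = 0 := by rw [hp, mul_assoc, hyy, mul_zero]
  have hqA : q * q = A * q := by rw [hA, add_mul, z2, zero_add]
  have hpA : p * p = A * p := by rw [hA, add_mul, z1, add_zero]
  have hqy : q * y = A * y := by rw [hA, add_mul, z6, zero_add]
  have hyp : y * p = A * y := by rw [← hqy, hp, hq, mul_assoc]
  have hpy' : p * star y = A * star y := by rw [hA, add_mul, z3, add_zero]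
  have hy'q : star y * q = A * star y := by rw [← hpy', hp, hq, mul_assoc]
  have hord : ∀ a b c d, θ a b * θ c d = if b = c then diag θ * θ a d else 0 := by
    rw [hdiag]
    let V : Fin 2 → Fin 2 → F := ![![q, y], ![star y, p]]
    let H : Fin 2 → Fin 2 → F := ![![Ψ, Φ], ![Φ, Ψ]]
    have hθ : ∀ a b, θ a b = V a b * H a b := by
      simp [Fin.forall_fin_two, θ, V, H, hΦ, (hcy' φ).eq]
    have hVA : ∀ a b, Commute A (V a b) := by
      simp [Fin.forall_fin_two, V, hp, hq, hAy, hAy', hAy.mul_right hAy', hAy'.mul_right hAy]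
    have hGV : ∀ a b, Commute G (V a b) := by
      simp only [Fin.forall_fin_two]
      exact ⟨⟨hcq g, hcy g⟩, hcy' g, hcp g⟩
    have hHV : ∀ a b c d, Commute (H a b) (V c d) := by
      simp only [Fin.forall_fin_two]
      exact ⟨⟨⟨⟨hcq ψ, hcy ψ⟩, hcy' ψ, hcp ψ⟩, ⟨hcq φ, hcy φ⟩, hcy' φ, hcp φ⟩,
        ⟨⟨hcq φ, hcy φ⟩, hcy' φ, hcp φ⟩, ⟨hcq ψ, hcy ψ⟩, hcy' ψ, hcp ψ⟩
    have low : ∀ {w : F} (h : F), Commute A w → Commute G w →
        A * w * (Ψ * h) = G * (w * h) := fun {w} h hA hG => by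
      rw [hA.eq, mul_assoc, ← mul_assoc A, hAΨ, ← mul_assoc, ← hG.eq, mul_assoc]
    intro a b c d
    rw [hθ a b, hθ c d, hθ a d, mul_assoc (V a b), ← mul_assoc (H a b), (hHV a b c d).eq,
      mul_assoc (V c d), ← mul_assoc (V a b)]
    by_cases hbc : b = c
    · subst hbc
      rw [if_pos rfl]
      fin_cases a <;> fin_cases b <;> fin_cases d
      · show q * q * (Ψ * Ψ) = G * (q * Ψ)
        rw [hqA, low (w := q) Ψ (hVA 0 0) (hGV 0 0)]
      · show q * y * (Ψ * Φ) = G * (y * Φ)
        rw [hqy, low Φ hAy (hcy g)]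
      · show y * star y * (Φ * Φ) = G * (q * Ψ)
        rw [hΦΦ, ← hq, ← mul_assoc, ← mul_assoc, show G * q = q * G from (hGV 0 0).eq]
      · show y * p * (Φ * Ψ) = G * (y * Φ)
        rw [hyp, ← hΨΦ.eq, low Φ hAy (hcy g)]
      · show star y * q * (Φ * Ψ) = G * (star y * Φ)
        rw [hy'q, ← hΨΦ.eq, low Φ hAy' (hcy' g)]
      · show star y * y * (Φ * Φ) = G * (p * Ψ)
        rw [hΦΦ, ← hp, ← mul_assoc, ← mul_assoc, show G * p = p * G from (hGV 1 1).eq]
      · show p * star y * (Ψ * Φ) = G * (star y * Φ)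
        rw [hpy', low Φ hAy' (hcy' g)]
      · show p * p * (Ψ * Ψ) = G * (p * Ψ)
        rw [hpA, low (w := p) Ψ (hVA 1 1) (hGV 1 1)]
    · rw [if_neg hbc]
      suffices V a b * V c d = 0 by rw [this, zero_mul]
      revert hbc
      revert a b c d
      simp [Fin.forall_fin_two, V, z1, z2, z3, z4, z5, z6, hyy, hyy']
  -- the mark
  let ψK : ℝ → ℝ := fun t => ψ t * K t
  have hψKc : Continuous ψK := hψc.mul hKc
  set E := cfc ψK A with hE
  have hAE : A * E = KA := by
    conv_lhs => arg 1; rw [← cfc_id' ℝ A hAsa]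
    exact hmul continuous_id hψKc fun t => by
      simp only [ψK]; rw [← mul_assoc, htψ, hgK]
  have hSE : S * E = 0 := by
    rw [hS, hE, hmul (h := fun t => (0 : ℝ)) hsgc hψKc fun t => ?_, cfc_const_zero]
    simp only [sg, ψK]
    by_cases h : K t = 0
    · simp [h]
    · have : g t = 1 := mul_right_cancel₀ h ((hgK t).trans (one_mul _).symm)
      simp [this]
  have hey : q * E * y = y * KA := by
    rw [mul_assoc, show E * y = y * E from (hcy ψK).eq, ← mul_assoc, hqy, hAy.eq, mul_assoc, hAE]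
  let K' : ℝ → ℝ := fun t => min 1 (max 0 ((t - 3 * δ) / δ))
  have hK'c : Continuous K' := by fun_prop
  have hKK' : ∀ t, K t * K' t = K' t := fun t => by
    rcases le_or_gt t (3 * δ) with h | h
    · have : (t - 3 * δ) / δ ≤ 0 := div_nonpos_of_nonpos_of_nonneg (by linarith) hδ.le
      simp [K', max_eq_left this]
    · have : 1 ≤ (t - 2 * δ) / δ := by rw [le_div_iff₀ hδ]; linarith
      simp [K, max_eq_right (zero_le_one.trans this), min_eq_left this]
  let ψK' : ℝ → ℝ := fun t => ψ t * K' t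
  have hψK'c : Continuous ψK' := hψc.mul hK'c
  set E' := cfc ψK' A with hE'
  set KA' := cfc K' A with hKA'
  have hgK' : ∀ t, g t * K' t = K' t := fun t => by rw [← hKK' t, ← mul_assoc, hgK]
  have hAE' : A * E' = KA' := by
    conv_lhs => arg 1; rw [← cfc_id' ℝ A hAsa]
    exact hmul continuous_id hψK'c fun t => by
      simp only [ψK']; rw [← mul_assoc, htψ, hgK']
  have hey' : q * E' * y = y * KA' := by
    rw [mul_assoc, show E' * y = y * E' from (hcy ψK').eq, ← mul_assoc, hqy, hAy.eq, mul_assoc,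
      hAE']
  refine ⟨θ, S, q * E, q * E', ⟨hstar, hord, ?_⟩, fun σ hσy => ?_, hsa sg, ?_, ?_, ?_, ?_, ?_, ?_,
    ?_, ?_⟩
  · simp only [Fin.forall_fin_two]
    refine ⟨⟨star y * R, ?_⟩, ⟨y * R, ?_⟩⟩
    · rw [h00, star_mul, star_star, hsa, ← hRR, mul_assoc R y, ← mul_assoc y, ← hq,
        ← mul_assoc R, (hcq sψ).eq, mul_assoc q]
    · rw [h11, star_mul, hsa, ← hRR, mul_assoc R (star y), ← mul_assoc (star y), ← hp,
        ← mul_assoc R, (hcp sψ).eq, mul_assoc p]
  · have hm := fun {f : ℝ → ℝ} (hf : Continuous f) => map_cfc_eq σ hAsa (hσA σ hσy) hf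
    refine ⟨?_, hm hsgc, ?_, ?_⟩
    · simp [Fin.forall_fin_two, θ, hp, hq, hΨ, hΦ, map_star, hσy, hm hψc, hm hφc]
    · simp [hq, hE, map_star, hσy, hm hψKc]
    · simp [hq, hE', map_star, hσy, hm hψK'c]
  · rw [star_mul, hsa, hq, star_mul, star_star, ← hq, (hcq ψK).eq]
  · rw [star_mul, hsa, hq, star_mul, star_star, ← hq, (hcq ψK').eq]
  · rw [hdiag, hmul (h := fun t => 1 - g t * g t) hsgc hsgc fun t => Real.mul_self_sqrt
      (by nlinarith [hg0 t, hg1 t]),
      cfc_sub (fun _ : ℝ => (1 : ℝ)) (fun t => g t * g t) A (hf := continuousOn_const)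
        (hg := (hgc.mul hgc).continuousOn), cfc_const_one ℝ A hAsa,
      cfc_mul g g A hgc.continuousOn hgc.continuousOn]
  · simp only [Fin.forall_fin_two]
    exact ⟨⟨(hcq sg).mul_right (cfc_commute_cfc sg ψ A),
      (hcy sg).mul_right (cfc_commute_cfc sg φ A)⟩,
      (cfc_commute_cfc sg φ A).mul_right (hcy' sg),
      (hcp sg).mul_right (cfc_commute_cfc sg ψ A)⟩
  · rw [h00]
    calc q * Ψ * (q * E) = q * (Ψ * q) * E := by simp only [mul_assoc]
      _ = A * q * (Ψ * E) := by
        rw [show Ψ * q = q * Ψ from (hcq ψ).eq, ← mul_assoc q, hqA, mul_assoc]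
      _ = q * (A * Ψ * E) := by
        rw [show A * q = q * A from (hAy.mul_right hAy').eq]; simp only [mul_assoc]
      _ = q * E := by
        rw [hAΨ, hmul (h := ψK) hgc hψKc fun t => ?_]
        simp only [ψK]
        rw [mul_left_comm, hgK]
  · rw [← mul_assoc, show S * q = q * S from (hcq sg).eq, mul_assoc, hSE, mul_zero]
  · calc q * E * (q * E') = q * (E * q) * E' := by simp only [mul_assoc]
      _ = A * q * (E * E') := by
        rw [show E * q = q * E from (hcq ψK).eq, ← mul_assoc q, hqA, mul_assoc]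
      _ = q * (A * E * E') := by
        rw [show A * q = q * A from (hAy.mul_right hAy').eq]; simp only [mul_assoc]
      _ = q * E' := by
        rw [hAE, hKA, hE', hmul (h := ψK') hKc hψK'c fun t => ?_]
        simp only [ψK']
        rw [mul_left_comm, hKK']
  · rw [hey']
    set u := cfc (fun t => 1 - K' t) A with hu
    have hone : u = 1 - KA' := by
      rw [hu, cfc_sub (fun _ : ℝ => (1 : ℝ)) K' A (hf := continuousOn_const)
        (hg := hK'c.continuousOn), cfc_const_one ℝ A hAsa]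
    rw [show y - y * KA' = y * u by rw [hone, mul_sub, mul_one], ← CStarRing.norm_star_mul_self]
    have h1 : star (y * u) * (y * u) = star u * p * u := by rw [star_mul, hp]; noncomm_ring
    rw [h1]
    refine (CStarAlgebra.norm_le_norm_of_nonneg_of_le
      (star_left_conjugate_nonneg (star_mul_self_nonneg y) u)
      (star_left_conjugate_le_conjugate
        (le_add_of_nonneg_right (mul_star_self_nonneg y) : p ≤ A) u)).trans ?_
    have hum : A * u = cfc (fun t => t * (1 - K' t)) A := by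
      conv_lhs => arg 1; rw [← cfc_id' ℝ A hAsa]
      exact hmul continuous_id (continuous_const.sub hK'c) fun t => rfl
    rw [mul_assoc, hsa, hum, hmul (f := fun t => 1 - K' t) (g := fun t => t * (1 - K' t))
      (h := fun t => (1 - K' t) * (t * (1 - K' t)))
      (continuous_const.sub hK'c) (continuous_id.mul (continuous_const.sub hK'c)) fun t => rfl]
    refine norm_cfc_le (by positivity) fun t ht => ?_
    have ht0 : 0 ≤ t := spectrum_nonneg_of_nonneg
      (add_nonneg (star_mul_self_nonneg y) (mul_star_self_nonneg y)) ht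
    have hK0 : 0 ≤ K' t := le_min zero_le_one (le_max_left _ _)
    have hK1 : K' t ≤ 1 := min_le_left _ _
    rw [Real.norm_eq_abs, abs_of_nonneg (mul_nonneg (by linarith) (mul_nonneg ht0 (by linarith)))]
    rcases le_or_gt (4 * δ) t with h | h
    · have h1 : 1 ≤ (t - 3 * δ) / δ := by rw [le_div_iff₀ hδ]; linarith
      have : K' t = 1 := by simp [K', max_eq_right (zero_le_one.trans h1), min_eq_left h1]
      rw [this]; nlinarith
    · calc (1 - K' t) * (t * (1 - K' t)) = t * ((1 - K' t) * (1 - K' t)) := by ring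
        _ ≤ t * 1 := by gcongr; nlinarith
        _ ≤ 4 * δ := by linarith

/-- The fixed seed. -/
theorem exists_fixed_seed (σ : F ≃⋆ₐ[ℂ] F) {y : F} (hσy : σ y = y) (hyy : y * y = 0) {δ : ℝ}
    (hδ : 0 < δ) :
    ∃ (θ : Fin 2 → Fin 2 → F) (s e : F), OrderZero θ ∧ (∀ a c, σ (θ a c) = θ a c) ∧ σ s = s ∧
      σ e = e ∧ star s = s ∧ star e = e ∧ s * s = 1 - diag θ * diag θ ∧
      (∀ a c, Commute s (θ a c)) ∧ θ 0 0 * e = e ∧ s * e = 0 ∧
      ‖y - e * y‖ * ‖y - e * y‖ ≤ 3 * δ := by
  obtain ⟨θ, s, e, e', hθ, hnat, hs, -, he', hss, hsθ, hθe, hse, hee, hy⟩ :=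
    exists_seed_natural hyy (δ := 3 / 4 * δ) (by positivity)
  obtain ⟨h1, h2, -, h3⟩ := hnat σ hσy
  exact ⟨θ, s, e', hθ, h1, h2, h3, hs, he', hss, hsθ, by rw [← hee, ← mul_assoc, hθe],
    by rw [← hee, ← mul_assoc, hse, zero_mul], by linarith⟩

end Vale.Agent.P095.Amen.Endgame
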